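import Vale.Agent.P204.Full.Flat

/-!
P204: the supremum of a compactly supported function on the model space is bounded by the
integral of its fourth derivative (fundamental theorem of calculus in each variable).
-/

namespace Vale.Agent.P204.Full.Square

open MeasureTheory Set
open scoped ContDiff

/-- the first coordinate embedding -/
noncomputable def consL (n : ℕ) : (Fin n → ℝ) →L[ℝ] (Fin (n + 1) → ℝ) :=
  ContinuousLinearMap.pi (Fin.cons 0 fun i => ContinuousLinearMap.proj i)

theorem consL_apply (n : ℕ) (y : Fin n → ℝ) : consL n y = Fin.cons 0 y := by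
  funext i
  refine Fin.cases ?_ (fun j => ?_) i <;> simp [consL]

theorem norm_consL_le (n : ℕ) : ‖consL n‖ ≤ 1 := by
  refine ContinuousLinearMap.opNorm_le_bound _ zero_le_one fun y => ?_
  rw [one_mul, consL_apply]
  refine (pi_norm_le_iff_of_nonneg (norm_nonneg _)).2 fun i => ?_
  refine Fin.cases ?_ (fun j => ?_) i
  · simp
  · simpa using norm_le_pi_norm y j

theorem norm_le_integral_iteratedFDeriv : ∀ (n : ℕ) (F : Type) [NormedAddCommGroup F]
    [NormedSpace ℝ F] [CompleteSpace F] (g : (Fin n → ℝ) → F), ContDiff ℝ ∞ g →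
      HasCompactSupport g → ∀ x, ‖g x‖ ≤ ∫ y, ‖iteratedFDeriv ℝ n g y‖ := by
  intro n
  induction n with
  | zero =>
    intro F _ _ _ g _ _ x
    refine le_of_eq ?_
    obtain rfl : x = default := Subsingleton.elim _ _
    rw [integral_unique]
    simp [norm_iteratedFDeriv_zero, measureReal_def, volume_pi]
    exact congrArg norm (congrArg g (Subsingleton.elim _ _))
  | succ n ih =>
    intro F _ _ _ g hg hs x
    obtain ⟨x0, x', rfl⟩ : ∃ a b, x = Fin.cons a b := ⟨x 0, Fin.tail x, (Fin.cons_self_tail x).symm⟩
    set e0 : Fin (n + 1) → ℝ := Fin.cons 1 0 with he0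
    have hcons : ∀ (t : ℝ) (y : Fin n → ℝ), (Fin.cons t y : Fin (n + 1) → ℝ) = consL n y + t • e0 := by
      intro t y
      rw [consL_apply]
      funext i
      refine Fin.cases ?_ (fun j => ?_) i <;> simp [he0]
    have he0n : ‖e0‖ ≤ 1 := by
      refine (pi_norm_le_iff_of_nonneg zero_le_one).2 fun i => ?_
      refine Fin.cases ?_ (fun j => ?_) i <;> simp [he0]
    have hd : ∀ t, HasDerivAt (fun t : ℝ => g (Fin.cons t x'))
        (fderiv ℝ g (Fin.cons t x') e0) t := by
      intro t
      have h1 : HasDerivAt (fun t : ℝ => (Fin.cons t x' : Fin (n + 1) → ℝ)) e0 t := by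
        simp only [hcons]
        simpa using ((hasDerivAt_id t).smul_const e0).const_add (consL n x')
      exact (hg.differentiable (by simp) _).hasFDerivAt.comp_hasDerivAt t h1
    have hemb : ∀ y : Fin n → ℝ, Topology.IsClosedEmbedding
        fun t : ℝ => (Fin.cons t y : Fin (n + 1) → ℝ) := fun y => by
      refine Topology.IsClosedEmbedding.of_continuous_injective_isClosedMap
        (by simp only [hcons]; fun_prop) (fun a b h => by simpa using congrFun h 0) ?_
      intro s hs'
      have h : (fun t : ℝ => (Fin.cons t y : Fin (n + 1) → ℝ)) '' s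
          = {z | z 0 ∈ s} ∩ {z | Fin.tail z = y} := by
        ext z
        constructor
        · rintro ⟨t, ht, rfl⟩
          exact ⟨by simpa using ht, by simp⟩
        · rintro ⟨h0, h1⟩
          exact ⟨z 0, h0, by simp only; rw [← h1]; exact Fin.cons_self_tail z⟩
      rw [h]
      refine (hs'.preimage (continuous_apply 0)).inter ?_
      exact isClosed_eq (by unfold Fin.tail; fun_prop) continuous_const
    have hcs1 : HasCompactSupport fun t : ℝ => g (Fin.cons t x') :=
      hs.comp_isClosedEmbedding (hemb x')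
    have hcsD : HasCompactSupport fun t : ℝ => fderiv ℝ g (Fin.cons t x') :=
      (hs.fderiv (𝕜 := ℝ)).comp_isClosedEmbedding (hemb x')
    have hcontD : Continuous fun t : ℝ => fderiv ℝ g (Fin.cons t x') :=
      (hg.continuous_fderiv (by simp)).comp (hemb x').continuous
    have hderiv : deriv (fun t : ℝ => g (Fin.cons t x')) = fun t => fderiv ℝ g (Fin.cons t x') e0 :=
      funext fun t => (hd t).deriv
    have hintn : Integrable fun t : ℝ => ‖fderiv ℝ g (Fin.cons t x')‖ :=
      hcontD.norm.integrable_of_hasCompactSupport hcsD.norm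
    have hsmooth : ContDiff ℝ 1 fun t : ℝ => g (Fin.cons t x') := by
      refine (hg.of_le (by simp)).comp ?_
      simp only [hcons]; fun_prop
    have h1 : ‖g (Fin.cons x0 x')‖ ≤ ∫ t : ℝ, ‖fderiv ℝ g (Fin.cons t x')‖ := by
      rw [← HasCompactSupport.integral_Iic_deriv_eq hsmooth hcs1 x0, hderiv]
      refine (norm_integral_le_integral_norm _).trans (le_trans (setIntegral_mono_on
        ((hcontD.clm_apply continuous_const).norm.integrable_of_hasCompactSupport
          (hcsD.mono fun t ht => by
            simp only [Function.mem_support] at ht ⊢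
            exact fun h => ht (by simp [h]))).integrableOn hintn.integrableOn measurableSet_Iic
        fun t _ => ?_) (setIntegral_le_integral hintn (Filter.Eventually.of_forall fun t => norm_nonneg _)))
      exact (ContinuousLinearMap.le_opNorm _ _).trans
        (mul_le_of_le_one_right (norm_nonneg _) he0n)
    set φ := fun z => ‖iteratedFDeriv ℝ (n + 1) g z‖ with hφ
    have hφc : Continuous φ := (hg.continuous_iteratedFDeriv (WithTop.coe_le_coe.2 le_top)).norm
    have hφs : HasCompactSupport φ := (hs.iteratedFDeriv (n + 1)).norm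
    have h2 : ∀ t : ℝ, ‖fderiv ℝ g (Fin.cons t x')‖ ≤ ∫ y : Fin n → ℝ, φ (Fin.cons t y) := by
      intro t
      have hfun : (fun y : Fin n → ℝ => fderiv ℝ g (Fin.cons t y))
          = (fun z => fderiv ℝ g (z + t • e0)) ∘ consL n := by
        funext y; simp [hcons]
      have hce : Topology.IsClosedEmbedding fun y : Fin n → ℝ => (Fin.cons t y : Fin (n + 1) → ℝ) := by
        refine Topology.IsClosedEmbedding.of_continuous_injective_isClosedMap
          (by simp only [hcons]; fun_prop) (fun a b h => by simpa using congrArg Fin.tail h) ?_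
        intro s hs'
        have h : (fun y : Fin n → ℝ => (Fin.cons t y : Fin (n + 1) → ℝ)) '' s
            = {z | z 0 = t} ∩ (fun z : Fin (n + 1) → ℝ => fun i : Fin n => z i.succ) ⁻¹' s := by
          ext z
          constructor
          · rintro ⟨y, hy, rfl⟩
            exact ⟨by simp, by simpa using hy⟩
          · rintro ⟨h0, h1⟩
            exact ⟨fun i => z i.succ, h1, by simp only; rw [← h0]; exact Fin.cons_self_tail z⟩
        rw [h]
        exact (isClosed_eq (continuous_apply 0) continuous_const).inter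
          (hs'.preimage (continuous_pi fun i => continuous_apply i.succ))
      have hG : ContDiff ℝ ∞ fun y : Fin n → ℝ => fderiv ℝ g (Fin.cons t y) := by
        rw [hfun]
        exact ((hg.fderiv_right (m := ∞) (by simp)).comp (contDiff_id.add contDiff_const)).comp
          (consL n).contDiff
      refine (ih _ _ hG ((hs.fderiv (𝕜 := ℝ)).comp_isClosedEmbedding hce) x').trans ?_
      refine integral_mono_of_nonneg (Filter.Eventually.of_forall fun y => norm_nonneg _)
        ((hφc.comp hce.continuous).integrable_of_hasCompactSupport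
          (hφs.comp_isClosedEmbedding hce)) (Filter.Eventually.of_forall fun y => ?_)
      show ‖iteratedFDeriv ℝ n (fun y => fderiv ℝ g (Fin.cons t y)) y‖ ≤ φ (Fin.cons t y)
      rw [hfun, ContinuousLinearMap.iteratedFDeriv_comp_right (consL n) (f := fun z => fderiv ℝ g (z + t • e0))
        ((hg.fderiv_right (m := ∞) (by simp)).comp (contDiff_id.add contDiff_const)) y
        (WithTop.coe_le_coe.2 le_top)]
      refine (ContinuousMultilinearMap.norm_compContinuousLinearMap_le _ _).trans ?_
      refine (mul_le_of_le_one_right (norm_nonneg _)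
        (Finset.prod_le_one (fun i _ => norm_nonneg _) fun i _ => norm_consL_le n)).trans ?_
      rw [iteratedFDeriv_comp_add_right, norm_iteratedFDeriv_fderiv, ← hcons]
    have hmp : MeasurePreserving (MeasurableEquiv.piFinSuccAbove (fun _ : Fin (n + 1) => ℝ) 0).symm
        ((volume : Measure ℝ).prod (volume : Measure (Fin n → ℝ)))
        (volume : Measure (Fin (n + 1) → ℝ)) :=
      (volume_preserving_piFinSuccAbove (fun _ : Fin (n + 1) => ℝ) 0).symm _
    have hprod : Integrable (fun p : ℝ × (Fin n → ℝ) => φ (Fin.cons p.1 p.2))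
        ((volume : Measure ℝ).prod (volume : Measure (Fin n → ℝ))) := by
      have := (hmp.integrable_comp_emb (MeasurableEquiv.measurableEmbedding _)).2
        (hφc.integrable_of_hasCompactSupport hφs)
      simpa [Function.comp_def, MeasurableEquiv.piFinSuccAbove, Fin.insertNthEquiv,
        Fin.insertNth_zero] using this
    refine h1.trans ((integral_mono hintn hprod.integral_prod_left h2).trans_eq ?_)
    rw [← integral_prod _ hprod]
    rw [← hmp.integral_comp (MeasurableEquiv.measurableEmbedding _) φ]
    simp [MeasurableEquiv.piFinSuccAbove, Fin.insertNthEquiv]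

/-- supremum bound on the model space -/
theorem norm_le_integral_four {F : Type} [NormedAddCommGroup F] [NormedSpace ℝ F] [CompleteSpace F]
    {f : E4 → F} (hf : ContDiff ℝ ∞ f) (hs : HasCompactSupport f)
    (x : E4) : ‖f x‖ ≤ 16 * ∫ y, ‖iteratedFDeriv ℝ 4 f y‖ := by
  set L : (Fin 4 → ℝ) ≃L[ℝ] E4 := (PiLp.continuousLinearEquiv 2 ℝ fun _ : Fin 4 => ℝ).symm
  have hL : ‖(L : (Fin 4 → ℝ) →L[ℝ] E4)‖ ≤ 2 := by
    refine ContinuousLinearMap.opNorm_le_bound _ (by norm_num) fun y => ?_
    have hLy : ∀ i, L y i = y i := fun i => rfl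
    rw [ContinuousLinearEquiv.coe_coe, EuclideanSpace.norm_eq]
    simp only [hLy]
    calc Real.sqrt (∑ i, ‖y i‖ ^ 2) ≤ Real.sqrt ((2 * ‖y‖) ^ 2) := by
          refine Real.sqrt_le_sqrt ?_
          rw [Fin.sum_univ_four]
          have h : ∀ i, ‖y i‖ ^ 2 ≤ ‖y‖ ^ 2 := fun i =>
            pow_le_pow_left₀ (norm_nonneg _) (norm_le_pi_norm y i) 2
          linarith [h 0, h 1, h 2, h 3]
      _ = 2 * ‖y‖ := Real.sqrt_sq (by positivity)
  have h := norm_le_integral_iteratedFDeriv 4 F (f ∘ L) (hf.comp L.contDiff)
    (hs.comp_homeomorph L.toHomeomorph) (L.symm x)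
  rw [Function.comp_apply, L.apply_symm_apply] at h
  refine h.trans ?_
  have hmp : MeasurePreserving (L : (Fin 4 → ℝ) → E4) volume volume :=
    PiLp.volume_preserving_toLp (Fin 4)
  have hc : Continuous fun y => ‖iteratedFDeriv ℝ 4 f y‖ :=
    (hf.continuous_iteratedFDeriv (WithTop.coe_le_coe.2 le_top)).norm
  have hi : Integrable fun y => ‖iteratedFDeriv ℝ 4 f y‖ :=
    hc.integrable_of_hasCompactSupport (hs.iteratedFDeriv 4).norm
  rw [← hmp.integral_comp L.toHomeomorph.measurableEmbedding, ← integral_const_mul]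
  refine integral_mono_of_nonneg (Filter.Eventually.of_forall fun y => norm_nonneg _)
    ((hmp.integrable_comp_emb L.toHomeomorph.measurableEmbedding).2 hi |>.const_mul 16)
    (Filter.Eventually.of_forall fun y => ?_)
  show ‖iteratedFDeriv ℝ 4 (f ∘ L) y‖ ≤ 16 * ‖iteratedFDeriv ℝ 4 f (L y)‖
  rw [show (f ∘ L) = f ∘ (L : (Fin 4 → ℝ) →L[ℝ] E4) from rfl,
    ContinuousLinearMap.iteratedFDeriv_comp_right _ hf y (WithTop.coe_le_coe.2 le_top)]
  refine (ContinuousMultilinearMap.norm_compContinuousLinearMap_le _ _).trans ?_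
  rw [mul_comm]
  refine mul_le_mul_of_nonneg_right ?_ (norm_nonneg _)
  refine (Finset.prod_le_prod (fun i _ => norm_nonneg _) fun i _ => hL).trans ?_
  norm_num

/-- every derivative is bounded by the integral of the derivative four orders higher -/
theorem norm_iteratedFDeriv_le_integral : ∀ (l : ℕ) {F : Type} [NormedAddCommGroup F]
    [NormedSpace ℝ F] [CompleteSpace F] {f : E4 → F}, ContDiff ℝ ∞ f → HasCompactSupport f →
      ∀ x, ‖iteratedFDeriv ℝ l f x‖ ≤ 16 * ∫ y, ‖iteratedFDeriv ℝ (l + 4) f y‖ := by
  intro l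
  induction l with
  | zero =>
    intro F _ _ _ f hf hs x
    rw [norm_iteratedFDeriv_zero, zero_add]
    exact norm_le_integral_four hf hs x
  | succ l ih =>
    intro F _ _ _ f hf hs x
    have h := ih (hf.fderiv_right (m := ∞) (by simp)) (hs.fderiv (𝕜 := ℝ)) x
    simp only [norm_iteratedFDeriv_fderiv] at h
    rwa [show l + 4 + 1 = l + 1 + 4 by omega] at h

end Vale.Agent.P204.Full.Square
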