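import Vale.Agent.P204.Full.Global.Read
import Vale.Agent.P204.Full.Square.SupBound

/-!
P204: Sobolev comparison of the norms of Core: `e ^ (N + 4) cN N w ≤ C sN (N + 4) e w`.
-/

namespace Vale.Agent.P204.Full.Square

open MeasureTheory Set Metric Filter Topology
open scoped ContDiff Manifold

set_option linter.unusedSectionVars false

/-- derivatives of `a * (h ∘ τ)` on a compact set, with a constant independent of `h` -/
theorem exists_comp_mul_le {U : Set E4} (hU : IsOpen U) {K : Set E4} (hK : IsCompact K)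
    (hKU : K ⊆ U) {a : E4 → ℝ} (ha : ContDiffOn ℝ ∞ a U) {τ : E4 → E4}
    (hτ : ContDiffOn ℝ ∞ τ U) (n : ℕ) :
    ∃ C, 0 ≤ C ∧ ∀ (V : Set E4) (h : E4 → ℝ), IsOpen V → MapsTo τ U V → ContDiffOn ℝ ∞ h V →
      ∀ y ∈ K, ‖iteratedFDeriv ℝ n (fun z => a z * h (τ z)) y‖ ≤
        C * ∑ l ∈ Finset.range (n + 1), ‖iteratedFDeriv ℝ l h (τ y)‖ := by
  have hud := hU.uniqueDiffOn (𝕜 := ℝ)
  have hca : ∀ i : ℕ, ∃ A, ∀ y ∈ K, ‖iteratedFDerivWithin ℝ i a U y‖ ≤ A := fun i =>
    hK.exists_bound_of_continuousOn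
      ((ha.continuousOn_iteratedFDerivWithin (WithTop.coe_le_coe.2 le_top) hud).mono hKU)
  have hct : ∀ i : ℕ, ∃ A, ∀ y ∈ K, ‖iteratedFDerivWithin ℝ i τ U y‖ ≤ A := fun i =>
    hK.exists_bound_of_continuousOn
      ((hτ.continuousOn_iteratedFDerivWithin (WithTop.coe_le_coe.2 le_top) hud).mono hKU)
  choose A hA using hca
  choose B hB using hct
  set D := 1 + ∑ i ∈ Finset.range (n + 1), |B i| with hD
  have hD1 : 1 ≤ D := le_add_of_nonneg_right (Finset.sum_nonneg fun i _ => abs_nonneg _)
  refine ⟨∑ i ∈ Finset.range (n + 1), (n.choose i : ℝ) * |A i| * ((n - i).factorial * D ^ (n - i)),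
    Finset.sum_nonneg fun i _ => by positivity, fun V h hV hm hh y hy => ?_⟩
  rw [← iteratedFDerivWithin_of_isOpen n hU (hKU hy), Finset.sum_mul]
  refine (norm_iteratedFDerivWithin_mul_le ha (hh.comp hτ hm) hud (hKU hy)
    (WithTop.coe_le_coe.2 le_top)).trans (Finset.sum_le_sum fun i hi => ?_)
  have hin : i ≤ n := Nat.lt_succ_iff.1 (Finset.mem_range.1 hi)
  set Sh := ∑ l ∈ Finset.range (n + 1), ‖iteratedFDeriv ℝ l h (τ y)‖ with hSh
  have hcomp : ‖iteratedFDerivWithin ℝ (n - i) (h ∘ τ) U y‖ ≤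
      (n - i).factorial * Sh * D ^ (n - i) := by
    refine norm_iteratedFDerivWithin_comp_le hh hτ (WithTop.coe_le_coe.2 le_top)
      (hV.uniqueDiffOn (𝕜 := ℝ)) hud hm (hKU hy) (fun l hl => ?_) fun l h1 hl => ?_
    · rw [iteratedFDerivWithin_of_isOpen l hV (hm (hKU hy)), hSh]
      exact Finset.single_le_sum (f := fun l => ‖iteratedFDeriv ℝ l h (τ y)‖)
        (fun l _ => norm_nonneg _) (Finset.mem_range.2 (by omega))
    · refine (hB l y hy).trans ((le_abs_self _).trans ?_)
      refine le_trans ?_ (le_self_pow₀ hD1 (by omega))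
      rw [hD]
      linarith [Finset.single_le_sum (f := fun l => |B l|) (fun l _ => abs_nonneg _)
        (Finset.mem_range.2 (by omega : l < n + 1))]
  calc (n.choose i : ℝ) * ‖iteratedFDerivWithin ℝ i a U y‖
        * ‖iteratedFDerivWithin ℝ (n - i) (h ∘ τ) U y‖
      ≤ (n.choose i : ℝ) * |A i| * ((n - i).factorial * Sh * D ^ (n - i)) := by
        gcongr
        exact (hA i y hy).trans (le_abs_self _)
    _ = _ := by ring

theorem norm_iteratedFDeriv_comp_proj {f : E4 → C2} {y : E4} (hf : ContDiffAt ℝ ∞ f y) (j : ℕ)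
    (a b : Fin 4) :
    ‖iteratedFDeriv ℝ j (fun z => f z a b) y‖ ≤ ‖iteratedFDeriv ℝ j f y‖ := by
  set L : C2 →L[ℝ] ℝ :=
    (ContinuousLinearMap.proj b).comp (ContinuousLinearMap.proj a : C2 →L[ℝ] C1) with hL
  have hn : ‖L‖ ≤ 1 := by
    refine ContinuousLinearMap.opNorm_le_bound _ zero_le_one fun v => ?_
    rw [one_mul]
    exact (norm_le_pi_norm (v a) b).trans (norm_le_pi_norm v a)
  exact (L.norm_iteratedFDeriv_comp_left hf (WithTop.coe_le_coe.2 le_top)).trans
    (mul_le_of_le_one_left (norm_nonneg _) hn)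

/-- a coefficient matrix is controlled by its entries -/
theorem norm_iteratedFDeriv_le_entries {f : E4 → C2} {y : E4} (hf : ContDiffAt ℝ ∞ f y) (j : ℕ) :
    ‖iteratedFDeriv ℝ j f y‖ ≤ ∑ a, ∑ b, ‖iteratedFDeriv ℝ j (fun z => f z a b) y‖ := by
  have hab : ∀ a b, ContDiffAt ℝ ∞ (fun z => f z a b) y := fun a b =>
    contDiffAt_pi.1 (contDiffAt_pi.1 hf a) b
  set E : Fin 4 → Fin 4 → ℝ →L[ℝ] C2 := fun a b =>
    ContinuousLinearMap.toSpanSingleton ℝ (Pi.single a (Pi.single b 1) : C2) with hE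
  have hEn : ∀ a b, ‖E a b‖ ≤ 1 := fun a b => by
    rw [hE, ContinuousLinearMap.norm_toSpanSingleton, Pi.norm_single, Pi.norm_single, norm_one]
  have he : f = fun z => ∑ p : Fin 4 × Fin 4, E p.1 p.2 (f z p.1 p.2) := by
    funext z c d
    simp [hE, Fintype.sum_prod_type, Finset.sum_apply, Pi.single_apply, ite_apply]
  conv_lhs => rw [he]
  have hn : ((j : ℕ∞) : WithTop ℕ∞) ≤ ∞ := WithTop.coe_le_coe.2 le_top
  rw [iteratedFDeriv_fun_sum_apply fun p _ =>
    ((E p.1 p.2).contDiff.contDiffAt.comp y ((hab p.1 p.2).of_le hn))]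
  refine (norm_sum_le _ _).trans ?_
  rw [Fintype.sum_prod_type]
  refine Finset.sum_le_sum fun a _ => Finset.sum_le_sum fun b _ => ?_
  exact ((E a b).norm_iteratedFDeriv_comp_left (hab a b) hn).trans
    (mul_le_of_le_one_left (norm_nonneg _) (hEn a b))

universe u

variable {M : Type u} [TopologicalSpace M] [ChartedSpace E4 M] [IsManifold (𝓡 4) ∞ M]
  [T2Space M] [CompactSpace M]

theorem sobolev (S : Setup M) (N : ℕ) : ∃ C, 0 ≤ C ∧ ∀ e : ℝ, 0 < e → e ≤ 1 → ∀ w : Form M,
    e ^ (N + 4) * S.cN N w.1 ≤ C * S.sN (N + 4) e w.1 := by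
  classical
  have hc : ∀ k, IsChart (S.at_.chart k) := S.at_.mem_maximal
  set c := S.at_.chart
  set q : Fin S.at_.n → E4 → ℝ := fun k z => S.at_.rho k ((c k).symm z) with hq
  have hqs : ∀ i k, ContDiffOn ℝ ∞ (fun z => S.at_.rho k ((c i).symm z)) (c i).target :=
    fun i k => (S.at_.rho_smooth k).contDiffOn (hc i)
  set Sk : Fin S.at_.n → Set E4 := fun k => c k '' tsupport (S.at_.rho k) with hSk
  have hSkc : ∀ k, IsCompact (Sk k) := fun k => ((isClosed_tsupport _).isCompact).image_of_continuousOn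
    ((c k).continuousOn.mono fun x hx => (S.at_.rho_support k hx).1)
  have hSk1 : ∀ k, Sk k ⊆ ball 0 1 := by
    rintro k _ ⟨x, hx, rfl⟩
    exact (S.at_.rho_support k hx).2
  have hqz : ∀ k, ∀ z ∈ (c k).target, z ∉ Sk k → q k z = 0 := fun k z hz hn =>
    image_eq_zero_of_notMem_tsupport (f := S.at_.rho k) (x := (c k).symm z)
      fun hmem => hn ⟨_, hmem, (c k).right_inv hz⟩
  have hball : ∀ k, closedBall (0 : E4) 2 ⊆ (c k).target := fun k =>
    (closedBall_subset_closedBall (by norm_num)).trans (S.at_.ball_subset k)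
  set hk : Fin S.at_.n → Fin 4 → Fin 4 → Form M → E4 → ℝ := fun k a b w z =>
    if z ∈ (c k).target then q k z * readC (c k) w.1 z a b else 0 with hhk
  have hzero : ∀ k a b (w : Form M) z, z ∉ Sk k → hk k a b w z = 0 := fun k a b w z hz => by
    rw [hhk]; dsimp only
    split_ifs with h
    · rw [hqz k z h hz, zero_mul]
    · rfl
  have hev : ∀ k a b (w : Form M), ∀ z ∈ (c k).target,
      hk k a b w =ᶠ[𝓝 z] fun z => q k z * readC (c k) w.1 z a b := fun k a b w z hz => by
    filter_upwards [(c k).open_target.mem_nhds hz] with z' hz'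
    rw [hhk]; dsimp only; rw [if_pos hz']
  have hsm : ∀ k a b (w : Form M), ContDiff ℝ ∞ (hk k a b w) := fun k a b w => by
    rw [contDiff_iff_contDiffAt]
    intro z
    by_cases hz : z ∈ (c k).target
    · exact (((hqs k k).mul (w.2.contDiffOn_coef (hc k) a b)).contDiffAt
        ((c k).open_target.mem_nhds hz)).congr_of_eventuallyEq (hev k a b w z hz)
    · have hz' : z ∉ Sk k := fun h => hz (hball k (ball_subset_closedBall.trans
        (closedBall_subset_closedBall (by norm_num)) (hSk1 k h)))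
      refine (contDiffAt_const (c := (0 : ℝ))).congr_of_eventuallyEq ?_
      filter_upwards [(hSkc k).isClosed.isOpen_compl.mem_nhds hz'] with z' h
      exact hzero k a b w z' h
  have hcs : ∀ k a b (w : Form M), HasCompactSupport (hk k a b w) := fun k a b w =>
    HasCompactSupport.intro (hSkc k) (hzero k a b w)
  -- derivatives of the localised coefficient
  have step1 : ∀ k (l : ℕ), ∃ C, 0 ≤ C ∧ ∀ (w : Form M) a b z,
      ‖iteratedFDeriv ℝ l (hk k a b w) z‖ ≤
        C * ∑ p ∈ Finset.range (l + 5),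
          ∫ y in closedBall (0 : E4) 2, ‖iteratedFDeriv ℝ p (S.read k w.1) y‖ := by
    intro k l
    obtain ⟨C, hC0, hC⟩ := exists_comp_mul_le (c k).open_target (isCompact_closedBall (0 : E4) 2)
      (hball k) (hqs k k) (τ := id) contDiffOn_id (l + 4)
    refine ⟨16 * C, by positivity, fun w a b z => ?_⟩
    refine (norm_iteratedFDeriv_le_integral l (hsm k a b w) (hcs k a b w) z).trans ?_
    rw [mul_assoc]
    refine mul_le_mul_of_nonneg_left ?_ (by norm_num)
    have hout : ∀ y, y ∉ closedBall (0 : E4) 2 → ‖iteratedFDeriv ℝ (l + 4) (hk k a b w) y‖ = 0 := by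
      intro y hy
      rw [norm_eq_zero]
      refine image_eq_zero_of_notMem_tsupport fun h => hy ?_
      have h2 := tsupport_iteratedFDeriv_subset (l + 4) h
      have h3 : tsupport (hk k a b w) ⊆ Sk k :=
        closure_minimal (fun v hv => by_contra fun hn => hv (hzero k a b w v hn)) (hSkc k).isClosed
      exact (ball_subset_closedBall.trans (closedBall_subset_closedBall (by norm_num)))
        (hSk1 k (h3 h2))
    rw [← setIntegral_eq_integral_of_forall_compl_eq_zero (s := closedBall (0 : E4) 2) hout]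
    have hcont : ∀ p : ℕ, IntegrableOn (fun y => ‖iteratedFDeriv ℝ p (S.read k w.1) y‖)
        (closedBall (0 : E4) 2) := fun p => by
      refine ContinuousOn.integrableOn_compact (isCompact_closedBall _ _) ?_
      have h := (w.2.contDiffOn_readC (hc k)).continuousOn_iteratedFDerivWithin (m := p)
        (WithTop.coe_le_coe.2 le_top) ((c k).open_target.uniqueDiffOn (𝕜 := ℝ))
      exact ((h.congr fun y hy => (iteratedFDerivWithin_of_isOpen p (c k).open_target hy).symm).norm).mono
        (hball k)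
    rw [← integral_finsetSum _ fun p _ => hcont p, ← integral_const_mul]
    refine setIntegral_mono_on ?_ ((integrable_finsetSum _ fun p _ => hcont p).const_mul C)
      measurableSet_closedBall fun y hy => ?_
    · exact (((hsm k a b w).continuous_iteratedFDeriv
        (WithTop.coe_le_coe.2 le_top)).norm.integrable_of_hasCompactSupport
        ((hcs k a b w).iteratedFDeriv _).norm).integrableOn
    · rw [((hev k a b w y (hball k hy)).iteratedFDeriv ℝ (l + 4)).eq_of_nhds]
      refine (hC (c k).target (fun z => readC (c k) w.1 z a b) (c k).open_target (mapsTo_id _)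
        (w.2.contDiffOn_coef (hc k) a b) y hy).trans ?_
      gcongr with p
      exact norm_iteratedFDeriv_comp_proj (w.2.contDiffAt_readC (hc k) (hball k hy)) p a b
  choose C1 hC10 hC1 using step1
  -- the integrals are controlled by the semiclassical norm
  set vb := Real.sqrt (volume.real (closedBall (0 : E4) 2)) with hvb
  have step2 : ∀ e : ℝ, 0 < e → e ≤ 1 → ∀ (w : Form M) k, ∀ p ≤ N + 4,
      e ^ (N + 4) * ∫ y in closedBall (0 : E4) 2, ‖iteratedFDeriv ℝ p (S.read k w.1) y‖ ≤
        vb * S.sN (N + 4) e w.1 := by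
    intro e he he1 w k p hp
    have : IsFiniteMeasure (volume.restrict (closedBall (0 : E4) 2)) :=
      isFiniteMeasure_restrict.2 measure_closedBall_lt_top.ne
    set g := fun y => ‖iteratedFDeriv ℝ p (S.read k w.1) y‖ with hg
    have hgc : ContinuousOn g (closedBall (0 : E4) 2) := by
      have h := (w.2.contDiffOn_readC (hc k)).continuousOn_iteratedFDerivWithin (m := p)
        (WithTop.coe_le_coe.2 le_top) ((c k).open_target.uniqueDiffOn (𝕜 := ℝ))
      exact ((h.congr fun y hy => (iteratedFDerivWithin_of_isOpen p (c k).open_target hy).symm).norm).mono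
        (hball k)
    have hint : IntegrableOn g (closedBall (0 : E4) 2) :=
      hgc.integrableOn_compact (isCompact_closedBall _ _)
    have hint2 : IntegrableOn (fun y => g y ^ 2) (closedBall (0 : E4) 2) :=
      (hgc.pow 2).integrableOn_compact (isCompact_closedBall _ _)
    have hcs : (∫ y in closedBall (0 : E4) 2, g y) ≤
        vb * Real.sqrt (∫ y in closedBall (0 : E4) 2, g y ^ 2) := by
      rw [hvb, ← Real.sqrt_mul measureReal_nonneg]
      refine Real.le_sqrt_of_sq_le ?_
      set I := ∫ y in closedBall (0 : E4) 2, g y with hI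
      set V := volume.real (closedBall (0 : E4) 2) with hV
      have hV0 : 0 < V := by
        rw [hV, measureReal_def]
        exact ENNReal.toReal_pos (measure_closedBall_pos volume _ (by norm_num)).ne'
          measure_closedBall_lt_top.ne
      have h0 : 0 ≤ ∫ y in closedBall (0 : E4) 2, (V * g y - I) ^ 2 :=
        integral_nonneg fun y => sq_nonneg _
      have h1 : (∫ y in closedBall (0 : E4) 2, (V * g y - I) ^ 2) =
          V ^ 2 * (∫ y in closedBall (0 : E4) 2, g y ^ 2) - V * I ^ 2 := by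
        have e1 : (fun y => (V * g y - I) ^ 2) =
            fun y => V ^ 2 * g y ^ 2 - 2 * V * I * g y + I ^ 2 := by funext y; ring
        rw [e1, integral_add, integral_sub, integral_const_mul, integral_const_mul, integral_const,
          measureReal_restrict_apply_univ, ← hI, ← hV, smul_eq_mul]
        · ring
        · exact hint2.const_mul _
        · exact hint.const_mul _
        · exact (hint2.const_mul _).sub (hint.const_mul _)
        · exact integrable_const _
      nlinarith
    have hsn : e ^ p * Real.sqrt (∫ y in closedBall (0 : E4) 2, g y ^ 2) ≤ S.sN (N + 4) e w.1 := by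
      refine le_trans ?_ (Finset.single_le_sum (f := fun i => ∑ j ∈ Finset.range (N + 4 + 1),
        e ^ j * Real.sqrt (∫ y in closedBall (0 : E4) 2, ‖iteratedFDeriv ℝ j (S.read i w.1) y‖ ^ 2))
        (fun i _ => Finset.sum_nonneg fun j _ => by positivity) (Finset.mem_univ k))
      exact Finset.single_le_sum (f := fun j => e ^ j * Real.sqrt
        (∫ y in closedBall (0 : E4) 2, ‖iteratedFDeriv ℝ j (S.read k w.1) y‖ ^ 2))
        (fun j _ => by positivity) (Finset.mem_range.2 (by omega))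
    calc e ^ (N + 4) * ∫ y in closedBall (0 : E4) 2, g y
        ≤ e ^ p * (vb * Real.sqrt (∫ y in closedBall (0 : E4) 2, g y ^ 2)) :=
          mul_le_mul (pow_le_pow_of_le_one he.le he1 hp) hcs
            (setIntegral_nonneg measurableSet_closedBall fun y _ => norm_nonneg _) (by positivity)
      _ = vb * (e ^ p * Real.sqrt (∫ y in closedBall (0 : E4) 2, g y ^ 2)) := by ring
      _ ≤ vb * S.sN (N + 4) e w.1 := mul_le_mul_of_nonneg_left hsn (Real.sqrt_nonneg _)
  -- compact supports inside the overlaps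
  have hK : ∀ i k, IsCompact (closedBall (0 : E4) 3 ∩ (c i).symm ⁻¹' tsupport (S.at_.rho k)) :=
    fun i k => (isCompact_closedBall (0 : E4) 3).of_isClosed_subset
      (((c i).symm.continuousOn.mono ((closedBall_subset_closedBall (by norm_num)).trans
        (S.at_.ball_subset i))).preimage_isClosed_of_isClosed isClosed_closedBall
        (isClosed_tsupport _)) inter_subset_left
  have hKov : ∀ i k, closedBall (0 : E4) 3 ∩ (c i).symm ⁻¹' tsupport (S.at_.rho k) ⊆
      ov (c i) (c k) := fun i k y hy =>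
    ⟨(closedBall_subset_closedBall (by norm_num)).trans (S.at_.ball_subset i) hy.1,
      (S.at_.rho_support k hy.2).1⟩
  have step3 : ∀ i k (j : ℕ) a b p r, ∃ C, 0 ≤ C ∧ ∀ (w : Form M),
      ∀ y ∈ closedBall (0 : E4) 3 ∩ (c i).symm ⁻¹' tsupport (S.at_.rho k),
        ‖iteratedFDeriv ℝ j (fun z => (jac (tr (c i) (c k)) z p a * jac (tr (c i) (c k)) z r b) *
          hk k p r w (tr (c i) (c k) z)) y‖ ≤
          C * ∑ l ∈ Finset.range (j + 1),
            ‖iteratedFDeriv ℝ l (hk k p r w) (tr (c i) (c k) y)‖ := by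
    intro i k j a b p r
    obtain ⟨C, hC0, hC⟩ := exists_comp_mul_le (isOpen_ov (c i) (c k)) (hK i k) (hKov i k)
      ((contDiffOn_jac_tr (hc i) (hc k) p a).mul (contDiffOn_jac_tr (hc i) (hc k) r b))
      (contDiffOn_tr (hc i) (hc k)) j
    exact ⟨C, hC0, fun w y hy => hC univ (hk k p r w) isOpen_univ (mapsTo_univ _ _)
      (hsm k p r w).contDiffOn y hy⟩
  choose C3 hC30 hC3 using step3
  set TT : Fin S.at_.n → ℕ → ℝ := fun k l => C1 k l * ((l + 5 : ℕ) * vb) with hTT
  set Ctot : ℝ := ∑ i, ∑ j ∈ Finset.range (N + 1), ∑ k, ∑ a, ∑ b, ∑ p, ∑ r,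
    C3 i k j a b p r * ∑ l ∈ Finset.range (j + 1), TT k l with hCtot
  have hTT0 : ∀ k l, 0 ≤ TT k l := fun k l =>
    mul_nonneg (hC10 k l) (mul_nonneg (Nat.cast_nonneg _) (Real.sqrt_nonneg _))
  refine ⟨Ctot, ?_, fun e he he1 w => ?_⟩
  · rw [hCtot]
    repeat (refine Finset.sum_nonneg fun _ _ => ?_)
    exact mul_nonneg (hC30 _ _ _ _ _ _ _) (Finset.sum_nonneg fun l _ => hTT0 _ _)
  have hsN : 0 ≤ S.sN (N + 4) e w.1 :=
    Finset.sum_nonneg fun i _ => Finset.sum_nonneg fun j _ => by positivity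
  have hd : ∀ k p r z, ∀ l ≤ N, e ^ (N + 4) * ‖iteratedFDeriv ℝ l (hk k p r w) z‖ ≤
      TT k l * S.sN (N + 4) e w.1 := by
    intro k p r z l hl
    calc e ^ (N + 4) * ‖iteratedFDeriv ℝ l (hk k p r w) z‖
        ≤ e ^ (N + 4) * (C1 k l * ∑ m ∈ Finset.range (l + 5),
          ∫ y in closedBall (0 : E4) 2, ‖iteratedFDeriv ℝ m (S.read k w.1) y‖) :=
          mul_le_mul_of_nonneg_left (hC1 k l w p r z) (by positivity)
      _ = C1 k l * ∑ m ∈ Finset.range (l + 5), e ^ (N + 4) *
          ∫ y in closedBall (0 : E4) 2, ‖iteratedFDeriv ℝ m (S.read k w.1) y‖ := by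
          rw [← Finset.mul_sum]; ring
      _ ≤ C1 k l * ∑ _m ∈ Finset.range (l + 5), vb * S.sN (N + 4) e w.1 := by
          refine mul_le_mul_of_nonneg_left (Finset.sum_le_sum fun m hm => ?_) (hC10 k l)
          exact step2 e he he1 w k m (by have := Finset.mem_range.1 hm; omega)
      _ = _ := by
          rw [hTT, Finset.sum_const, Finset.card_range, nsmul_eq_mul]; ring
  rw [Setup.cN, Finset.mul_sum, hCtot, Finset.sum_mul]
  refine Finset.sum_le_sum fun i _ => ?_
  rw [Finset.mul_sum, Finset.sum_mul]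
  refine Finset.sum_le_sum fun j hj => ?_
  have hjN : j ≤ N := Nat.lt_succ_iff.1 (Finset.mem_range.1 hj)
  have : Nonempty (closedBall (0 : E4) 3) := ⟨⟨0, mem_closedBall_self (by norm_num)⟩⟩
  rw [Real.mul_iSup_of_nonneg (by positivity)]
  refine ciSup_le fun y => ?_
  obtain ⟨y, hy⟩ := y
  have hyt : y ∈ (c i).target :=
    (closedBall_subset_closedBall (by norm_num)).trans (S.at_.ball_subset i) hy
  have hread : ContDiffAt ℝ ∞ (S.read i w.1) y := w.2.contDiffAt_readC (hc i) hyt
  set G : Fin S.at_.n → Fin 4 → Fin 4 → E4 → ℝ := fun k a b z =>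
    S.at_.rho k ((c i).symm z) * readC (c i) w.1 z a b with hG
  have hGs : ∀ k a b, ContDiffAt ℝ j (G k a b) y := fun k a b =>
    ((((hqs i k).mul (w.2.contDiffOn_coef (hc i) a b)).contDiffAt
      ((c i).open_target.mem_nhds hyt))).of_le (WithTop.coe_le_coe.2 le_top)
  have hsum : ∀ a b, (fun z => readC (c i) w.1 z a b) = fun z => ∑ k, G k a b z := fun a b => by
    funext z
    simp [hG, ← Finset.sum_mul, S.at_.rho_sum]
  have hpiece : ∀ k a b, e ^ (N + 4) * ‖iteratedFDeriv ℝ j (G k a b) y‖ ≤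
      (∑ p, ∑ r, C3 i k j a b p r * ∑ l ∈ Finset.range (j + 1), TT k l) *
        S.sN (N + 4) e w.1 := by
    intro k a b
    have hR : 0 ≤ (∑ p, ∑ r, C3 i k j a b p r * ∑ l ∈ Finset.range (j + 1), TT k l) *
        S.sN (N + 4) e w.1 :=
      mul_nonneg (Finset.sum_nonneg fun p _ => Finset.sum_nonneg fun r _ =>
        mul_nonneg (hC30 _ _ _ _ _ _ _) (Finset.sum_nonneg fun l _ => hTT0 _ _)) hsN
    by_cases hm : (c i).symm y ∈ tsupport (S.at_.rho k)
    swap
    · have hz : G k a b =ᶠ[𝓝 y] fun _ => (0 : ℝ) := by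
        filter_upwards [((c i).symm.continuousAt hyt).eventually
          ((isClosed_tsupport _).isOpen_compl.mem_nhds hm)] with z hz
        simp [hG, image_eq_zero_of_notMem_tsupport hz]
      rw [(hz.iteratedFDeriv ℝ j).eq_of_nhds]
      rcases j with - | j <;> simp at hR ⊢ <;> exact hR
    have hyK : y ∈ closedBall (0 : E4) 3 ∩ (c i).symm ⁻¹' tsupport (S.at_.rho k) := ⟨hy, hm⟩
    have hyo := hKov i k hyK
    have heq : G k a b =ᶠ[𝓝 y] fun z => ∑ pr : Fin 4 × Fin 4,
        (jac (tr (c i) (c k)) z pr.1 a * jac (tr (c i) (c k)) z pr.2 b) *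
          hk k pr.1 pr.2 w (tr (c i) (c k) z) := by
      filter_upwards [(isOpen_ov (c i) (c k)).mem_nhds hyo] with z hz
      have ht : tr (c i) (c k) z ∈ (c k).target := (c k).map_source hz.2
      simp only [hG, hhk, if_pos ht, hq, symm_tr hz]
      rw [w.2.isAltField.readC_tr (hc i) (hc k) hz, Fintype.sum_prod_type, pullC]
      rw [Finset.mul_sum]
      refine Finset.sum_congr rfl fun p _ => ?_
      rw [Finset.mul_sum]
      exact Finset.sum_congr rfl fun r _ => by ring
    rw [(heq.iteratedFDeriv ℝ j).eq_of_nhds, iteratedFDeriv_fun_sum_apply]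
    · refine (mul_le_mul_of_nonneg_left (norm_sum_le _ _) (by positivity)).trans ?_
      rw [Fintype.sum_prod_type, Finset.mul_sum, Finset.sum_mul]
      refine Finset.sum_le_sum fun p _ => ?_
      rw [Finset.mul_sum, Finset.sum_mul]
      refine Finset.sum_le_sum fun r _ => ?_
      refine (mul_le_mul_of_nonneg_left (hC3 i k j a b p r w y hyK) (by positivity)).trans ?_
      rw [mul_left_comm, mul_assoc, Finset.mul_sum, Finset.sum_mul]
      refine mul_le_mul_of_nonneg_left (Finset.sum_le_sum fun l hl => ?_) (hC30 _ _ _ _ _ _ _)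
      exact hd k p r _ l (by have := Finset.mem_range.1 hl; omega)
    · intro pr _
      exact (((contDiffOn_jac_tr (hc i) (hc k) pr.1 a).mul
        (contDiffOn_jac_tr (hc i) (hc k) pr.2 b)).mul ((hsm k pr.1 pr.2 w).comp_contDiffOn
          (contDiffOn_tr (hc i) (hc k)))).contDiffAt ((isOpen_ov _ _).mem_nhds hyo)
        |>.of_le (WithTop.coe_le_coe.2 le_top)
  calc e ^ (N + 4) * ‖iteratedFDeriv ℝ j (S.read i w.1) y‖
      ≤ e ^ (N + 4) * ∑ a, ∑ b, ‖iteratedFDeriv ℝ j (fun z => readC (c i) w.1 z a b) y‖ :=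
        mul_le_mul_of_nonneg_left (norm_iteratedFDeriv_le_entries hread j) (by positivity)
    _ ≤ e ^ (N + 4) * ∑ a, ∑ b, ∑ k, ‖iteratedFDeriv ℝ j (G k a b) y‖ := by
        gcongr with a _ b
        rw [hsum a b, iteratedFDeriv_fun_sum_apply fun k _ => hGs k a b]
        exact norm_sum_le _ _
    _ = ∑ k, ∑ a, ∑ b, e ^ (N + 4) * ‖iteratedFDeriv ℝ j (G k a b) y‖ := by
        simp only [Finset.mul_sum]
        rw [Finset.sum_comm (s := (Finset.univ : Finset (Fin S.at_.n)))]
        exact Finset.sum_congr rfl fun a _ => Finset.sum_comm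
    _ ≤ ∑ k, ∑ a, ∑ b, (∑ p, ∑ r, C3 i k j a b p r * ∑ l ∈ Finset.range (j + 1), TT k l) *
        S.sN (N + 4) e w.1 := by
        exact Finset.sum_le_sum fun k _ => Finset.sum_le_sum fun a _ => Finset.sum_le_sum fun b _ =>
          hpiece k a b
    _ = _ := by simp only [Finset.sum_mul]

end Vale.Agent.P204.Full.Square
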