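import Vale.Agent.P204.Full.Alg.Frame
import Vale.Agent.P204.Heart.Alg

/-!
P204: every value of an invariant form on a complex line is its wedge product with a form
`(ℓ ∘ A) ∧ ℓ`, the coefficients of `df ∧ dᶜf` for a function with differential `ℓ`.
-/

namespace Vale.Agent.P204.Full.Square

open Matrix Vale.Agent.P204.Heart Vale.Agent.P204.Full.Alg

theorem pullC_wedge11 (L : Matrix (Fin 4) (Fin 4) ℝ) (a b : C1) :
    pullC L (wedge11 a b) = wedge11 (L.transpose *ᵥ a) (L.transpose *ᵥ b) := by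
  funext i j
  simp only [pullC, wedge11, Matrix.mulVec, dotProduct, Matrix.transpose_apply,
    Fin.sum_univ_four]
  ring

theorem anti_wedge11 (a b : C1) : Anti (wedge11 a b) := fun i j => by
  simp only [wedge11]; ring

theorem norm_wedge11_le (a b : C1) : ‖wedge11 a b‖ ≤ 2 * ‖a‖ * ‖b‖ := by
  refine norm_C2_le (by positivity) fun i j => ?_
  calc |wedge11 a b i j| ≤ |a i * b j| + |a j * b i| := abs_sub _ _
    _ ≤ ‖a‖ * ‖b‖ + ‖a‖ * ‖b‖ := by
        rw [abs_mul, abs_mul]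
        exact add_le_add
          (mul_le_mul (abs_le_norm_C1 a i) (abs_le_norm_C1 b j) (abs_nonneg _) (norm_nonneg _))
          (mul_le_mul (abs_le_norm_C1 a j) (abs_le_norm_C1 b i) (abs_nonneg _) (norm_nonneg _))
    _ = _ := by ring

theorem exists_covector {A : Matrix (Fin 4) (Fin 4) ℝ} (hA : Near A) (v : C1) :
    ∃ ℓ : C1, ‖ℓ‖ ≤ 4 * ‖v‖ ∧ ∀ b : C2, Anti b → Inv A b →
      ev2 b v (A *ᵥ v) = (frame A).det * wdg b (wedge11 (A.transpose *ᵥ ℓ) ℓ) := by
  set L := frame A with hL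
  have hdet : IsUnit L.det := by
    rw [isUnit_iff_ne_zero]; linarith [hA.det_frame.1]
  set w := L⁻¹ *ᵥ v with hw
  have hLw : L *ᵥ w = v := by rw [hw, mulVec_mulVec, Matrix.mul_nonsing_inv _ hdet, one_mulVec]
  set u : C1 := ![w 2, -(w 3), -(w 0), w 1] with hu
  have hdetT : IsUnit L.transpose.det := by rwa [Matrix.det_transpose]
  set ℓ := L.transpose⁻¹ *ᵥ u with hℓ
  have hLl : L.transpose *ᵥ ℓ = u := by
    rw [hℓ, mulVec_mulVec, Matrix.mul_nonsing_inv _ hdetT, one_mulVec]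
  refine ⟨ℓ, ?_, fun b hb hi => ?_⟩
  · have h1 := norm_mulVec_le (A := L.transpose - 1) (r := 1 / 1000)
      (fun p q => by
        have h := hA.frame_sub_one q p
        rcases eq_or_ne p q with rfl | hne
        · simpa [hL] using h
        · simpa [hL, Matrix.one_apply, hne, hne.symm] using h) ℓ
    rw [sub_mulVec, one_mulVec, hLl] at h1
    have h2 : ‖ℓ‖ - ‖u‖ ≤ ‖ℓ - u‖ := norm_sub_norm_le ℓ u
    rw [norm_sub_rev] at h2
    have h3 : ‖u‖ ≤ ‖w‖ := (pi_norm_le_iff_of_nonneg (norm_nonneg _)).2 fun i => by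
      fin_cases i <;> simp [hu] <;> exact abs_le_norm_C1 w _
    have h4 := (hA.norm_frame_mulVec w).1
    rw [← hL, hLw] at h4
    have := norm_nonneg ℓ
    linarith
  · have e1 : ev2 b v (A *ᵥ v) = ev2 (pullC L b) w (J0 *ᵥ w) := by
      rw [ev2_pullC, hLw, mulVec_mulVec w L J0, hL, ← hA.mul_frame, ← mulVec_mulVec, ← hL, hLw]
    obtain ⟨h1, h2⟩ := (inv_J0_iff (anti_pullC hb L)).1 (inv_conj hA.mul_frame hi)
    have e2 : L.transpose *ᵥ (A.transpose *ᵥ ℓ) = -(J0 *ᵥ u) := by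
      rw [mulVec_mulVec, ← Matrix.transpose_mul, hL, hA.mul_frame, Matrix.transpose_mul, ← hL,
        ← mulVec_mulVec, hLl]
      funext i
      fin_cases i <;> simp [J0, Matrix.mulVec, dotProduct, Fin.sum_univ_succ]
    have e3 := hA.wdg_frame hb (anti_wedge11 (A.transpose *ᵥ ℓ) ℓ)
    rw [← hL, pullC_wedge11, e2, hLl] at e3
    rw [e1, ← e3]
    have e4 : wdg (pullC L b) (wedge11 (-(J0 *ᵥ u)) u) = qH (pullC L b) u u := by
      simp only [qH, wdg, wedge11, Pi.neg_apply]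
      ring
    rw [e4, qH_expand h1 h2, ev2_J0 (anti_pullC hb L) h1 h2, hu]
    simp only [Matrix.cons_val_zero, Matrix.cons_val_one, Matrix.cons_val_two,
      Matrix.cons_val_three, Matrix.head_cons, Matrix.tail_cons]
    ring

end Vale.Agent.P204.Full.Square
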