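import Mathlib

/-!
P204, steps 2 and 3: the real recursion.
A bound `y ↦ C + θ y` from scale `e / Λ` to scale `e`, started from a polynomial bound, gives a
uniform bound as soon as `θ Λ^k < 1`.
-/

namespace Vale.Agent.P204.Full.Square

open Filter Topology Set

theorem pred_bdd {P : ℝ → ℝ → Prop} (hmono : ∀ e y z, y ≤ z → P e y → P e z)
    (hlim : ∀ e y, (∀ η > 0, P e (y + η)) → P e y)
    {Λ θ C A e0 : ℝ} {k : ℕ} (hΛ : 1 ≤ Λ) (hθ : 0 ≤ θ) (hsmall : θ * Λ ^ k ≤ 1 / 2)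
    (hC : 0 ≤ C) (hA : 0 ≤ A) (he0 : 0 < e0)
    (hstep : ∀ e, 0 < e → e ≤ e0 → e ≤ 1 → ∀ y, 0 ≤ y → P (e / Λ) y → P e (C + θ * y))
    (hinit : ∀ e, 0 < e → e ≤ 1 → P e (A / e ^ k)) :
    ∃ B, 0 ≤ B ∧ ∀ e, 0 < e → e ≤ 1 → P e B := by
  have hΛ0 : 0 < Λ := lt_of_lt_of_le one_pos hΛ
  have hΛk : 1 ≤ Λ ^ k := one_le_pow₀ hΛ
  have hθ2 : θ ≤ 1 / 2 := le_trans (le_mul_of_one_le_right hθ hΛk) hsmall
  have key : ∀ j : ℕ, ∀ e, 0 < e → e ≤ e0 → e ≤ 1 → P e (2 * C + (1 / 2) ^ j * (A / e ^ k)) := by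
    intro j
    induction j with
    | zero =>
      intro e he _ he1
      refine hmono e _ _ ?_ (hinit e he he1)
      simp
      linarith
    | succ j ih =>
      intro e he hee he1
      have hd : 0 < e / Λ := div_pos he hΛ0
      have hde : e / Λ ≤ e := div_le_self he.le hΛ
      have hq : 0 ≤ A / e ^ k := div_nonneg hA (pow_nonneg he.le k)
      have hy : 0 ≤ 2 * C + (1 / 2) ^ j * (A / (e / Λ) ^ k) := by positivity
      refine hmono e _ _ ?_ (hstep e he hee he1 _ hy (ih _ hd (hde.trans hee) (hde.trans he1)))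
      have h1 : θ * ((1 / 2) ^ j * (A / (e / Λ) ^ k))
          = (θ * Λ ^ k) * ((1 / 2) ^ j * (A / e ^ k)) := by
        have hek : e ^ k ≠ 0 := (pow_pos he k).ne'
        have hlk : Λ ^ k ≠ 0 := (pow_pos hΛ0 k).ne'
        rw [div_pow e Λ k, div_div_eq_mul_div]
        ring
      have h2 : θ * (2 * C) ≤ C := by nlinarith
      have h3 : (θ * Λ ^ k) * ((1 / 2) ^ j * (A / e ^ k))
          ≤ (1 / 2) * ((1 / 2) ^ j * (A / e ^ k)) :=
        mul_le_mul_of_nonneg_right hsmall (by positivity)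
      rw [mul_add, h1, pow_succ]
      nlinarith
  refine ⟨max (2 * C) (A / e0 ^ k), le_max_of_le_left (by linarith), fun e he he1 => ?_⟩
  by_cases hee : e ≤ e0
  · refine hmono e _ _ (le_max_left _ _) (hlim e _ fun η hη => ?_)
    have ht : Tendsto (fun j : ℕ => (1 / 2 : ℝ) ^ j * (A / e ^ k)) atTop (𝓝 0) := by
      simpa using (tendsto_pow_atTop_nhds_zero_of_lt_one (by norm_num : (0 : ℝ) ≤ 1 / 2)
        (by norm_num)).mul_const (A / e ^ k)
    obtain ⟨j, hj⟩ := (ht.eventually_le_const hη).exists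
    exact hmono e _ _ (by linarith) (key j e he hee he1)
  · push Not at hee
    refine hmono e _ _ (le_trans ?_ (le_max_right _ _)) (hinit e he he1)
    gcongr

/-- the square identity turns the density bound into a contraction -/
theorem root_bound {C η : ℝ} (hC : 0 ≤ C) (hη : 0 < η) :
    ∃ c, 0 ≤ c ∧ ∀ q m y e : ℝ, 0 ≤ m → 0 ≤ y → 0 ≤ e → m ≤ C + C * y →
      q ^ 2 ≤ C * (m + Real.sqrt m * y + e ^ 2 * y ^ 2) →
      q ≤ c + (η + (C + 1) * e) * y := by
  set a : ℝ := η ^ 2 / (2 * (C + 1)) with ha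
  have ha0 : 0 < a := by positivity
  set b : ℝ := C * (1 + 1 / (2 * a)) with hb
  have hb0 : 0 ≤ b := by positivity
  set K : ℝ := C * b + (C * b) ^ 2 / (4 * (C + 1) * a) + 1 with hK
  refine ⟨Real.sqrt K, Real.sqrt_nonneg _, fun q m y e hm hy he hmy hq => ?_⟩
  have hK0 : 0 ≤ K := by positivity
  have hs : Real.sqrt m * y ≤ m / (2 * a) + a / 2 * y ^ 2 := by
    have := Real.sq_sqrt hm
    rw [div_add' _ _ _ (by positivity), le_div_iff₀ (by positivity)]
    nlinarith [sq_nonneg (Real.sqrt m - a * y)]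
  have h1 : q ^ 2 ≤ C * b + C * b * y + C * (a / 2) * y ^ 2 + C * e ^ 2 * y ^ 2 := by
    have hmb : m * (1 + 1 / (2 * a)) ≤ b + b * y := by
      have : 0 ≤ 1 + 1 / (2 * a) := by positivity
      rw [hb]
      nlinarith [mul_le_mul_of_nonneg_right hmy this]
    have e1 : m + m / (2 * a) = m * (1 + 1 / (2 * a)) := by ring
    nlinarith [mul_le_mul_of_nonneg_left hs hC, mul_le_mul_of_nonneg_left hmb hC]
  have h2 : C * b * y ≤ (C * b) ^ 2 / (4 * (C + 1) * a) + (C + 1) * a * y ^ 2 := by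
    rw [div_add' _ _ _ (by positivity), le_div_iff₀ (by positivity)]
    nlinarith [sq_nonneg (C * b - 2 * (C + 1) * a * y)]
  have hη2 : 2 * (C + 1) * a = η ^ 2 := by rw [ha]; field_simp
  have h3 : q ^ 2 ≤ K + η ^ 2 * y ^ 2 + (C + 1) ^ 2 * e ^ 2 * y ^ 2 := by
    have h4 : C * (a / 2) * y ^ 2 + (C + 1) * a * y ^ 2 ≤ η ^ 2 * y ^ 2 := by
      rw [← hη2]
      have : 0 ≤ a * y ^ 2 := by positivity
      nlinarith [mul_nonneg hC this]
    have h5 : C * e ^ 2 * y ^ 2 ≤ (C + 1) ^ 2 * e ^ 2 * y ^ 2 := by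
      have : 0 ≤ e ^ 2 * y ^ 2 := by positivity
      nlinarith [mul_nonneg hC this, mul_nonneg (mul_nonneg hC hC) this]
    rw [hK]
    linarith
  have hsq := Real.sq_sqrt hK0
  have hs0 := Real.sqrt_nonneg K
  refine (abs_le.1 (abs_le_of_sq_le_sq (h3.trans ?_) (by positivity))).2
  have c1 : 0 ≤ Real.sqrt K * ((η + (C + 1) * e) * y) := by positivity
  have c2 : 0 ≤ η * ((C + 1) * e) * y ^ 2 := by positivity
  nlinarith

end Vale.Agent.P204.Full.Square
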