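import Vale.Agent.P204.Full.End.Main
import Vale.Agent.P204.Full.Square.Iterate
import Vale.Agent.P204.Full.Square.Sobolev

/-!
P204, steps 2 and 3: the square identity and the iteration. The global facts are taken from
`EndTools`; the pointwise positivity of the representative from `RepPos`.
-/

namespace Vale.Agent.P204.Full.Square

open MeasureTheory Set Filter Topology
open scoped Manifold ContDiff

set_option linter.unusedSectionVars false

universe u

variable {M : Type u} [TopologicalSpace M] [ChartedSpace E4 M] [MeasurableSpace M]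
  [IsManifold (𝓡 4) ∞ M] [T2Space M] [CompactSpace M] [BorelSpace M]
variable {S : Setup M} (T : EndTools S) {R Rt : ℝ → Form M →ₗ[ℝ] Form M}

theorem sN_nonneg (S : Setup M) (m : ℕ) {e : ℝ} (he : 0 ≤ e) (w : M → E4 → E4 → ℝ) :
    0 ≤ S.sN m e w :=
  Finset.sum_nonneg fun _ _ => Finset.sum_nonneg fun j _ =>
    mul_nonneg (pow_nonneg he j) (Real.sqrt_nonneg _)

theorem sN_mono (S : Setup M) {m m' : ℕ} (h : m ≤ m') {e : ℝ} (he : 0 ≤ e)
    (w : M → E4 → E4 → ℝ) : S.sN m e w ≤ S.sN m' e w :=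
  Finset.sum_le_sum fun _ _ => Finset.sum_le_sum_of_subset_of_nonneg
    (Finset.range_mono (by omega)) fun j _ _ => mul_nonneg (pow_nonneg he j) (Real.sqrt_nonneg _)

/-- the symmetry of a smoothing pair -/
theorem smoothPair_swap (T : EndTools S) (h : SmoothPair S R Rt) : SmoothPair S Rt R where
  left := h.right
  right := h.left
  adj e w η := by
    have h1 := h.adj e η w
    rw [← T.hQ, ← T.hQ] at h1 ⊢
    rw [T.Q_comm (Rt e w), T.Q_comm w]
    exact h1.symm
  represent L N C hL e he he1 := (h.represent L N C hL e he he1).symm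

/-- the smoothed invariant part of the anti-invariant functional is of order `e` -/
theorem exists_inv_part (hop : Mollif S Rt) (O : Obstruction S) (m : ℕ) :
    ∃ D, 0 ≤ D ∧ ∀ e, 0 < e → e ≤ 1 → ∀ y, 0 ≤ y →
      (∀ ψ : Form M, |O.φ ψ| ≤ y * S.sN m e ψ.1) → ∀ PR : Form M,
        (∀ η, T.Q PR η = O.φ (Rt e η)) → S.l2 (T.P PR).1 ≤ D * e * y := by
  obtain ⟨Cc, hc⟩ := hop.comm_inv m
  have hC0 : 0 ≤ T.C := zero_le_one.trans T.C_pos
  refine ⟨T.C * T.C * |Cc|, by positivity, fun e he he1 y hy hP PR hPR => ?_⟩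
  obtain ⟨η, hη, hη1, hη2⟩ := T.inv_dual PR
  rw [T.Q_P_right PR η hη, hPR] at hη2
  have hinv : p11 S.J η.1 = η.1 := by rw [← T.hP, hη]
  have h3 : O.φ (Rt e η) ≤ y * (|Cc| * e * (T.C * S.l2 (T.P PR).1)) := by
    rw [← O.φ_anti (Rt e η) (Rt e η - T.P (Rt e η)) (T.pm_eq _)]
    refine ((le_abs_self _).trans (hP _)).trans (mul_le_mul_of_nonneg_left ?_ hy)
    rw [T.pm_eq]
    refine (hc e he he1 η hinv).trans (mul_le_mul ?_ hη1 (T.l2_nonneg η) (by positivity))
    exact mul_le_mul_of_nonneg_right (le_abs_self Cc) he.le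
  rcases (T.l2_nonneg (T.P PR)).eq_or_lt with h | h
  · rw [← h]; positivity
  · refine le_of_mul_le_mul_right ?_ h
    nlinarith [mul_le_mul_of_nonneg_left h3 hC0]

/-- the density at scale `K e`, in the square integral norm -/
theorem exists_dens_bound (T : EndTools S) (O : Obstruction S) (hlog : LogTestSpec S) (m : ℕ)
    (hm : O.order + 4 ≤ m) {K : ℝ} (hK : 0 < K) :
    ∃ D, 0 ≤ D ∧ ∀ e, 0 < e → e ≤ 1 → ∀ y, 0 ≤ y →
      (∀ ψ : Form M, |O.φ ψ| ≤ y * S.sN m e ψ.1) →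
        e * Real.sqrt (∫ x, dens S O.T (K * e) x ^ 2 ∂S.vol) ≤ D * Real.sqrt (1 + y) := by
  have hT : IsPosCur S O.T := isPosCur_T O
  have := T.finite
  suffices h : ∃ D, 0 ≤ D ∧ ∀ e, 0 < e → e ≤ 1 → ∀ y, 0 ≤ y →
      (∀ ψ : Form M, |O.φ ψ| ≤ y * S.sN m e ψ.1) →
        e ^ 2 * ∫ x, dens S O.T (K * e) x ^ 2 ∂S.vol ≤ D * (1 + y) by
    obtain ⟨D, hD, h⟩ := h
    refine ⟨Real.sqrt D, Real.sqrt_nonneg _, fun e he he1 y hy hP => ?_⟩
    rw [← Real.sqrt_mul hD]
    calc e * Real.sqrt (∫ x, dens S O.T (K * e) x ^ 2 ∂S.vol)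
        = Real.sqrt (e ^ 2 * ∫ x, dens S O.T (K * e) x ^ 2 ∂S.vol) := by
          rw [Real.sqrt_mul (sq_nonneg e), Real.sqrt_sq he.le]
      _ ≤ _ := Real.sqrt_le_sqrt (h e he he1 y hy hP)
  obtain ⟨Cl, hl⟩ := hlog O K hK m hm
  obtain ⟨B, hB, hmass⟩ := T.dens_mass K hK
  refine ⟨|Cl| / K ^ 4 * B, by positivity, fun e he he1 y hy hP => ?_⟩
  have hr0 : 0 < K * e := by positivity
  have hcont := T.dens_cont O.T (T.posCur_bound hT) (K * e) hr0
  have hint : Integrable (fun x => dens S O.T (K * e) x) S.vol :=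
    hcont.integrable_of_hasCompactSupport (HasCompactSupport.of_compactSpace _)
  have hb : ∀ x, e ^ 2 * dens S O.T (K * e) x ≤ |Cl| / K ^ 4 * (1 + y) := fun x => by
    have h1 := hl e he he1 y hP x
    rw [dens, ← mul_div_assoc, mul_pow, div_le_iff₀ (by positivity)]
    have h2 : Cl + Cl * y ≤ |Cl| * (1 + y) := by
      nlinarith [le_abs_self Cl, mul_le_mul_of_nonneg_right (le_abs_self Cl) hy]
    calc e ^ 2 * ballVal S O.T (K * e) x ≤ e ^ 2 * (e ^ 2 * (|Cl| * (1 + y))) :=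
          mul_le_mul_of_nonneg_left (h1.trans (mul_le_mul_of_nonneg_left h2 (by positivity)))
            (by positivity)
      _ = |Cl| / K ^ 4 * (1 + y) * (K ^ 4 * e ^ 4) := by field_simp
  calc e ^ 2 * ∫ x, dens S O.T (K * e) x ^ 2 ∂S.vol
      = ∫ x, (e ^ 2 * dens S O.T (K * e) x) * dens S O.T (K * e) x ∂S.vol := by
        rw [← integral_const_mul]
        exact integral_congr_ae (Eventually.of_forall fun x => by ring)
    _ ≤ ∫ x, (|Cl| / K ^ 4 * (1 + y)) * dens S O.T (K * e) x ∂S.vol := by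
        refine integral_mono_of_nonneg (Eventually.of_forall fun x => ?_) (hint.const_mul _)
          (Eventually.of_forall fun x => ?_)
        · exact mul_nonneg (mul_nonneg (by positivity) (T.dens_nonneg hT hr0 x))
            (T.dens_nonneg hT hr0 x)
        · exact mul_le_mul_of_nonneg_right (hb x) (T.dens_nonneg hT hr0 x)
    _ = |Cl| / K ^ 4 * (1 + y) * ∫ x, dens S O.T (K * e) x ∂S.vol := integral_const_mul _ _
    _ ≤ |Cl| / K ^ 4 * (1 + y) * (B * O.T S.F) :=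
        mul_le_mul_of_nonneg_left (hmass O.T hT (T.posCur_bound hT) e he he1) (by positivity)
    _ = |Cl| / K ^ 4 * B * (1 + y) := by rw [O.T_unit]; ring

/-- the anti-invariant part of a representative of the positive functional -/
theorem exists_rep_pm_bound (hop : Mollif S Rt) (O : Obstruction S) :
    ∃ C K, 0 ≤ C ∧ 0 < K ∧ ∀ e, 0 < e → e ≤ 1 → ∀ TR : Form M,
      (∀ w, T.Q TR w = O.T (Rt e w)) →
        S.l2 (TR - T.P TR).1 ≤
          C * (e * Real.sqrt (∫ x, dens S O.T (K * e) x ^ 2 ∂S.vol)) := by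
  obtain ⟨Ck, K, K₁, K₂, hCk, -, hK₁, -, hker⟩ := exists_kernel_bounds hop
  have hT : IsPosCur S O.T := isPosCur_T O
  have hc := T.c_pos
  refine ⟨Ck / T.c, K₁, by positivity, hK₁, fun e he he1 TR qT => ?_⟩
  set mT := TR - T.P TR with hmT
  set I := e * Real.sqrt (∫ x, dens S O.T (K₁ * e) x ^ 2 ∂S.vol) with hI
  have h1 : T.c * S.l2 mT.1 ^ 2 ≤ Ck * I * S.l2 mT.1 := by
    refine (T.anti_pos TR).trans ?_
    have e1 : T.Q mT mT = O.T (Rt e mT) := by
      rw [← qT, hmT, T.Q_comm TR, T.Q_pm_right TR TR]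
    rw [← hmT, e1]
    have hk := (hker O.T hT T.P T.hP e he he1 _ mT).2.1
      (T.maj_bound O.T hT (T.posCur_bound hT) (K₁ * e) (by positivity)) (T.pm_self TR)
    refine ((le_abs_self _).trans hk).trans ?_
    calc Ck * e * ∫ x, S.nrm mT.1 x * dens S O.T (K₁ * e) x ∂S.vol
        ≤ Ck * e * (S.l2 mT.1 * Real.sqrt (∫ x, dens S O.T (K₁ * e) x ^ 2 ∂S.vol)) :=
          mul_le_mul_of_nonneg_left (T.pairing_le hT (by positivity) mT) (by positivity)
      _ = _ := by rw [hI]; ring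
  rcases (T.l2_nonneg mT).eq_or_lt with h0 | h0
  · rw [← h0]; positivity
  · rw [div_mul_eq_mul_div, le_div_iff₀ hc]
    refine le_of_mul_le_mul_right ?_ h0
    nlinarith

/-- lower bound for the square of the invariant part of that representative -/
theorem exists_rep_lower
    (hsym : ∀ H : Form M, p11 S.J H.1 = H.1 → NonnegJ S.J H.1 → 0 ≤ T.Q H H)
    (O : Obstruction S) (hrep : RepPos S T O Rt) :
    ∃ C K, 0 ≤ C ∧ 0 < K ∧ ∀ e, 0 < e → e ≤ 1 → ∀ TR : Form M,
      (∀ η : Form M, S.pair TR.1 η.1 = O.T (Rt e η)) →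
        -(C * (e * Real.sqrt (∫ x, dens S O.T (K * e) x ^ 2 ∂S.vol)) ^ 2) ≤
          T.Q (T.P TR) (T.P TR) := by
  obtain ⟨Cr, Kr, hKr, hr⟩ := hrep
  have := T.finite
  have hT : IsPosCur S O.T := isPosCur_T O
  have hC0 : 0 ≤ T.C := zero_le_one.trans T.C_pos
  refine ⟨T.C * (2 * |Cr| ^ 3 + |Cr| ^ 4), Kr, by positivity, hKr, fun e he he1 TR hTR => ?_⟩
  obtain ⟨G', H, hPG, hH1, hH2, hb'⟩ := hr e he he1 TR hTR
  set I := Real.sqrt (∫ x, dens S O.T (Kr * e) x ^ 2 ∂S.vol) with hI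
  have hl : ∀ w : Form M, (∀ x, S.nrm w.1 x ≤ Cr * dens S O.T (Kr * e) x) →
      S.l2 w.1 ≤ |Cr| * I := by
    intro w hw
    have hcd := T.dens_cont O.T (T.posCur_bound hT) (Kr * e) (by positivity)
    rw [hI, ← Real.sqrt_sq (abs_nonneg Cr), ← Real.sqrt_mul (sq_nonneg _), ← integral_const_mul]
    refine Real.sqrt_le_sqrt (integral_mono_of_nonneg
      (Eventually.of_forall fun x => sq_nonneg _)
      ((hcd.pow 2).integrable_of_hasCompactSupport (HasCompactSupport.of_compactSpace _)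
        |>.const_mul _) (Eventually.of_forall fun x => ?_))
    simp only [sq_abs]
    rw [← mul_pow]
    exact pow_le_pow_left₀ (T.nrm_nonneg w x) (hw x) 2
  have hQ : ∀ u v : Form M, S.l2 u.1 ≤ |Cr| * I → S.l2 v.1 ≤ |Cr| * I →
      |T.Q u v| ≤ T.C * (|Cr| ^ 2 * I ^ 2) := fun u v hu hv => by
    refine (T.abs_Q u v).trans ?_
    rw [mul_assoc, show |Cr| ^ 2 * I ^ 2 = (|Cr| * I) * (|Cr| * I) by ring]
    exact mul_le_mul_of_nonneg_left
      (mul_le_mul hu hv (T.l2_nonneg v) (mul_nonneg (abs_nonneg _) (Real.sqrt_nonneg _))) hC0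
  have h1 := hQ H G' (hl H fun x => (hb' x).2) (hl G' fun x => (hb' x).1)
  have h2 := hQ G' G' (hl G' fun x => (hb' x).1) (hl G' fun x => (hb' x).1)
  have i1 : |2 * (Cr * e ^ 2) * T.Q H G'| ≤ 2 * |Cr| * e ^ 2 * (T.C * (|Cr| ^ 2 * I ^ 2)) := by
    rw [abs_mul, abs_mul, abs_mul, abs_two, abs_of_nonneg (sq_nonneg e), ← mul_assoc 2]
    exact mul_le_mul_of_nonneg_left h1 (by positivity)
  have i2 : |(Cr * e ^ 2) ^ 2 * T.Q G' G'| ≤ |Cr| ^ 2 * e ^ 2 * (T.C * (|Cr| ^ 2 * I ^ 2)) := by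
    rw [abs_mul, abs_of_nonneg (sq_nonneg _)]
    refine mul_le_mul ?_ h2 (abs_nonneg _) (by positivity)
    rw [mul_pow, sq_abs]
    exact mul_le_mul_of_nonneg_left
      (pow_le_of_le_one (sq_nonneg e) (pow_le_one₀ he.le he1) two_ne_zero) (sq_nonneg _)
  have eQ : T.Q (T.P TR) (T.P TR) =
      T.Q H H - 2 * (Cr * e ^ 2) * T.Q H G' + (Cr * e ^ 2) ^ 2 * T.Q G' G' := by
    rw [hPG]
    simp only [map_sub, map_smul, LinearMap.sub_apply, LinearMap.smul_apply, smul_eq_mul]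
    rw [T.Q_comm G' H]
    ring
  linarith [le_abs_self (2 * (Cr * e ^ 2) * T.Q H G'),
    neg_abs_le ((Cr * e ^ 2) ^ 2 * T.Q G' G'), hsym H hH1 hH2]

/-- the square identity: the smoothed anti-invariant functional is bounded in the square
integral norm by the density bound and by its own semiclassical bound -/
theorem exists_rep_bound (hsym : ∀ H : Form M, p11 S.J H.1 = H.1 → NonnegJ S.J H.1 → 0 ≤ T.Q H H)
    (h : SmoothPair S R Rt) (O : Obstruction S) (hrep : RepPos S T O Rt)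
    (hlog : LogTestSpec S) (m : ℕ) (hm : O.order + 4 ≤ m) :
    ∃ C, 0 ≤ C ∧ ∀ η, 0 < η → ∃ c, 0 ≤ c ∧ ∀ e, 0 < e → e ≤ 1 → ∀ y, 0 ≤ y →
      (∀ ψ : Form M, |O.φ ψ| ≤ y * S.sN m e ψ.1) → ∀ χ : Form M,
        |O.φ (Rt e χ)| ≤ C * (c + (η + C * e) * y) * S.l2 χ.1 := by
  obtain ⟨Ck, K, K₁, K₂, hCk, hK, -, -, hker⟩ := exists_kernel_bounds h.right
  obtain ⟨D, hD, hinv⟩ := exists_inv_part T h.right O m
  obtain ⟨Cm, Km, hCm, hKm, hpm⟩ := exists_rep_pm_bound T h.right O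
  obtain ⟨Cl, Kl, hCl, hKl, hlow⟩ := exists_rep_lower T hsym O hrep
  obtain ⟨D0, hD0, hd0⟩ := exists_dens_bound T O hlog m hm hK
  obtain ⟨D1, hD1, hd1⟩ := exists_dens_bound T O hlog m hm hKm
  obtain ⟨D2, hD2, hd2⟩ := exists_dens_bound T O hlog m hm hKl
  have hT : IsPosCur S O.T := isPosCur_T O
  have hc := T.c_pos
  have hC0 : 0 ≤ T.C := zero_le_one.trans T.C_pos
  set G1 := (2 * (Cl * D2 ^ 2) + 2 * (T.C * (Cm * D1) ^ 2)) / T.c with hG1
  set G2 := 4 * (Ck * D0 * D) / T.c with hG2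
  set G3 := 2 * (T.C * D ^ 2) / T.c with hG3
  set G := G1 + G2 + G3 + 1 with hG
  have hG10 : 0 ≤ G1 := by positivity
  have hG20 : 0 ≤ G2 := by positivity
  have hG30 : 0 ≤ G3 := by positivity
  have hG0 : 0 ≤ G := by positivity
  refine ⟨T.C * (G + D + 1) + (G + D + 1), by positivity, fun η hη => ?_⟩
  obtain ⟨c, hc0, hroot⟩ := root_bound hG0 hη
  refine ⟨c, hc0, fun e he he1 y hy hP χ => ?_⟩
  set b := 1 + y with hb
  set r := Real.sqrt b with hr
  have hr0 : 0 ≤ r := Real.sqrt_nonneg _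
  have hr2 : r ^ 2 = b := Real.sq_sqrt (by positivity)
  obtain ⟨⟨PR, hPR⟩, -⟩ := h.represent O.φ O.order O.bound O.φ_bound e he he1
  obtain ⟨⟨TR, hTR⟩, -⟩ := h.represent O.T 0 O.bound O.T_bound e he he1
  have qP : ∀ w, T.Q PR w = O.φ (Rt e w) := fun w => by rw [T.hQ, hPR]
  have qT : ∀ w, T.Q TR w = O.T (Rt e w) := fun w => by rw [T.hQ, hTR]
  set X := T.P PR with hX
  have hx : S.l2 X.1 ≤ D * e * y := hinv e he he1 y hy hP PR qP
  set B := TR + PR with hB
  have qB : ∀ w, T.Q B w = O.T (Rt e w) + O.φ (Rt e w) := fun w => by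
    rw [hB, map_add, LinearMap.add_apply, qT, qP]
  have hcl : IsClosedForm B.1 := T.closed_of_pair B fun w hw => by
    rw [qB]; exact O.closed_null _ (T.exact_closed _ (h.right.exact e w hw))
  have hBB : T.Q B B = 0 := by rw [qB]; exact O.closed_null _ (h.right.closed e B hcl)
  set mT := TR - T.P TR with hmT
  have hmTQ : |T.Q mT mT| ≤ T.C * (Cm * D1) ^ 2 * b := by
    have h1 : S.l2 mT.1 ≤ Cm * D1 * r := by
      refine (hpm e he he1 TR qT).trans ?_
      rw [mul_assoc]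
      exact mul_le_mul_of_nonneg_left (hd1 e he he1 y hy hP) hCm
    refine (T.abs_Q mT mT).trans ?_
    rw [← hr2, mul_assoc, mul_assoc, sq, sq,
      show Cm * D1 * (Cm * D1) * (r * r) = (Cm * D1 * r) * (Cm * D1 * r) by ring]
    exact mul_le_mul_of_nonneg_left
      (mul_le_mul h1 h1 (T.l2_nonneg _) (by positivity)) hC0
  have hTX : |T.Q (T.P TR) X| ≤ Ck * D0 * D * (r * y) := by
    rw [T.Q_P_right TR X (T.P_idem PR), qT]
    refine ((hker O.T hT T.P T.hP e he he1 _ X).1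
      (T.maj_bound O.T hT (T.posCur_bound hT) (K * e) (by positivity))).trans ?_
    rw [show Ck * D0 * D * (r * y) = Ck * (D * y * (D0 * r)) by ring]
    refine mul_le_mul_of_nonneg_left ((T.pairing_le hT (by positivity) X).trans ?_) hCk.le
    calc S.l2 X.1 * Real.sqrt (∫ x, dens S O.T (K * e) x ^ 2 ∂S.vol)
        ≤ D * e * y * Real.sqrt (∫ x, dens S O.T (K * e) x ^ 2 ∂S.vol) :=
          mul_le_mul_of_nonneg_right hx (Real.sqrt_nonneg _)
      _ = D * y * (e * Real.sqrt (∫ x, dens S O.T (K * e) x ^ 2 ∂S.vol)) := by ring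
      _ ≤ _ := mul_le_mul_of_nonneg_left (hd0 e he he1 y hy hP) (by positivity)
  have hXX : |T.Q X X| ≤ T.C * D ^ 2 * (e ^ 2 * y ^ 2) := by
    refine (T.abs_Q X X).trans ?_
    rw [mul_assoc, mul_assoc, show D ^ 2 * (e ^ 2 * y ^ 2) = (D * e * y) * (D * e * y) by ring]
    exact mul_le_mul_of_nonneg_left
      (mul_le_mul hx hx (T.l2_nonneg X) (by positivity)) hC0
  have hTT : -(Cl * D2 ^ 2 * b) ≤ T.Q (T.P TR) (T.P TR) := by
    refine le_trans (neg_le_neg ?_) (hlow e he he1 TR hTR)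
    rw [← hr2, mul_assoc, ← mul_pow]
    exact mul_le_mul_of_nonneg_left
      (pow_le_pow_left₀ (by positivity) (hd2 e he he1 y hy hP) 2) hCl
  set q := S.l2 (PR - X).1 with hq
  have hPB : T.P B = T.P TR + X := by rw [hB, map_add]
  have hsplit := T.Q_split B
  rw [hBB, hPB] at hsplit
  simp only [map_add, LinearMap.add_apply] at hsplit
  rw [T.Q_comm X (T.P TR)] at hsplit
  have hmsum : 0 ≤ T.Q ((B - (T.P TR + X)) + mT) ((B - (T.P TR + X)) + mT) := by
    have e1 : (B + TR) - T.P (B + TR) = (B - (T.P TR + X)) + mT := by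
      rw [map_add, hPB, hmT]; abel
    rw [← e1]
    exact le_trans (mul_nonneg hc.le (sq_nonneg _)) (T.anti_pos (B + TR))
  have e2 : PR - X = (B - (T.P TR + X)) - mT := by rw [hB, hmT]; abel
  have hq2 : T.c * q ^ 2 ≤ 2 * (T.Q (B - (T.P TR + X)) (B - (T.P TR + X))) + 2 * T.Q mT mT := by
    refine (T.anti_pos PR).trans ?_
    rw [← hX, e2]
    generalize B - (T.P TR + X) = a at hmsum ⊢
    simp only [map_add, map_sub, LinearMap.add_apply, LinearMap.sub_apply] at hmsum ⊢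
    linarith
  have hq4 : q ^ 2 ≤ G * (b + Real.sqrt b * y + e ^ 2 * y ^ 2) := by
    have h1 : q ^ 2 ≤ G1 * b + G2 * (r * y) + G3 * (e ^ 2 * y ^ 2) := by
      rw [hG1, hG2, hG3, div_mul_eq_mul_div, div_mul_eq_mul_div, div_mul_eq_mul_div, ← add_div,
        ← add_div, le_div_iff₀ hc]
      linarith [neg_abs_le (T.Q (T.P TR) X), neg_abs_le (T.Q X X), le_abs_self (T.Q mT mT)]
    have u1 : 0 ≤ b := by positivity
    have u2 : 0 ≤ r * y := mul_nonneg hr0 hy
    have u3 : 0 ≤ e ^ 2 * y ^ 2 := by positivity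
    rw [hG, ← hr]
    linarith [mul_nonneg hG20 u1, mul_nonneg hG30 u1, mul_nonneg hG10 u2, mul_nonneg hG30 u2,
      mul_nonneg hG10 u3, mul_nonneg hG20 u3]
  have hbG : b ≤ G + G * y := by
    rw [hb, hG]
    linarith [mul_nonneg hG10 hy, mul_nonneg hG20 hy, mul_nonneg hG30 hy]
  have hq5 := hroot q b y e (by positivity) hy he.le hbG hq4
  rw [← qP, show PR = X + (PR - X) by abel, map_add, LinearMap.add_apply]
  refine (abs_add_le _ _).trans ((add_le_add (T.abs_Q _ _) (T.abs_Q _ _)).trans ?_)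
  rw [← add_mul, ← mul_add]
  refine mul_le_mul_of_nonneg_right ?_ (T.l2_nonneg χ)
  set C' := T.C * (G + D + 1) + (G + D + 1) with hC'
  have c1 : T.C ≤ C' := by rw [hC']; linarith [mul_nonneg hC0 hG0, mul_nonneg hC0 hD]
  have c2 : D + G + 1 ≤ C' := by rw [hC']; linarith [mul_nonneg hC0 (by positivity : 0 ≤ G + D + 1)]
  calc T.C * (S.l2 X.1 + S.l2 (PR - X).1)
      ≤ T.C * (D * e * y + (c + (η + (G + 1) * e) * y)) :=
        mul_le_mul_of_nonneg_left (add_le_add hx hq5) hC0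
    _ = T.C * (c + (η + (D + G + 1) * e) * y) := by ring
    _ ≤ C' * (c + (η + C' * e) * y) := by gcongr

/-- one step of the iteration, from scale `a ≤ e` to scale `e` -/
theorem exists_step (T : EndTools S) (h : SmoothPair S R Rt) (O : Obstruction S) (m : ℕ) :
    ∃ Cs, 0 ≤ Cs ∧ ∀ a e, 0 < a → a ≤ e → e ≤ 1 → ∀ q y, 0 ≤ q → 0 ≤ y →
      (∀ χ : Form M, |O.φ (R a χ)| ≤ q * S.l2 χ.1) →
      (∀ ψ : Form M, |O.φ ψ| ≤ y * S.sN m a ψ.1) →
        ∀ ψ : Form M, |O.φ ψ| ≤ Cs * (q + (a / e) ^ m * y) * S.sN m e ψ.1 := by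
  choose Cp hp using fun i => h.left.power i
  have hC0 : 0 ≤ T.C := zero_le_one.trans T.C_pos
  set Cq := T.C * ∑ i ∈ Finset.range m, |Cp i| with hCq
  have hCq0 : 0 ≤ Cq := mul_nonneg hC0 (Finset.sum_nonneg fun i _ => abs_nonneg _)
  refine ⟨Cq + |Cp m|, by positivity, fun a e ha0 hae he1 q y hq hy hbnd hP ψ => ?_⟩
  have he : 0 < e := ha0.trans_le hae
  set L := (1 : Form M →ₗ[ℝ] Form M) - R a with hL
  have htel : ∀ n : ℕ, O.φ ψ =
      (∑ i ∈ Finset.range n, O.φ (R a ((L ^ i) ψ))) + O.φ ((L ^ n) ψ) := by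
    intro n
    induction n with
    | zero => simp
    | succ n ih =>
      rw [Finset.sum_range_succ, ih, pow_succ', Module.End.mul_apply]
      simp only [hL, LinearMap.sub_apply, Module.End.one_apply, map_sub]
      ring
  have hpow : ∀ i ≤ m, S.sN i a ((L ^ i) ψ).1 ≤
      |Cp i| * (a / e) ^ i * S.sN m e ψ.1 := fun i hi =>
    (hp i a e ha0 hae he1 ψ).trans (mul_le_mul (mul_le_mul_of_nonneg_right (le_abs_self _)
      (by positivity)) (sN_mono S hi he.le _) (sN_nonneg S i he.le _) (by positivity))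
  have hs := sN_nonneg S m he.le ψ.1
  have hmain : |O.φ ψ| ≤ q * (Cq * S.sN m e ψ.1) +
      y * (|Cp m| * (a / e) ^ m * S.sN m e ψ.1) := by
    rw [htel m]
    refine (abs_add_le _ _).trans (add_le_add ((Finset.abs_sum_le_sum_abs _ _).trans ?_)
      ((hP _).trans (mul_le_mul_of_nonneg_left (hpow m le_rfl) hy)))
    rw [hCq, mul_assoc T.C, Finset.sum_mul, Finset.mul_sum, Finset.mul_sum]
    refine Finset.sum_le_sum fun i hi => (hbnd _).trans (mul_le_mul_of_nonneg_left ?_ hq)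
    refine (T.l2_le_sN a _).trans (mul_le_mul_of_nonneg_left ?_ hC0)
    refine ((sN_mono S (Nat.zero_le i) ha0.le _).trans
      (hpow i (Finset.mem_range.1 hi).le)).trans ?_
    exact mul_le_mul_of_nonneg_right (mul_le_of_le_one_right (abs_nonneg _)
      (pow_le_one₀ (by positivity) ((div_le_one he).2 hae))) hs
  refine hmain.trans ?_
  rw [show q * (Cq * S.sN m e ψ.1) + y * (|Cp m| * (a / e) ^ m * S.sN m e ψ.1) =
    (q * Cq + (a / e) ^ m * y * |Cp m|) * S.sN m e ψ.1 by ring]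
  refine mul_le_mul_of_nonneg_right ?_ hs
  have h1 : 0 ≤ (a / e) ^ m * y := by positivity
  linarith [mul_nonneg hCq0 h1, mul_nonneg (abs_nonneg (Cp m)) hq]

/-- steps 2 and 3 from the global facts and the pointwise positivity -/
theorem squareSpec_of_tools
    (hsym : ∀ H : Form M, p11 S.J H.1 = H.1 → NonnegJ S.J H.1 → 0 ≤ T.Q H H)
    (hrep : ∀ R Rt, SmoothPair S R Rt → ∀ O : Obstruction S, RepPos S T O Rt) : SquareSpec S := by
  rintro ⟨R, Rt, h⟩ hlog O
  set m := O.order + 5 with hm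
  set k := O.order + 4 with hk
  obtain ⟨C2, hC2, hrb⟩ := exists_rep_bound T hsym (smoothPair_swap T h) O
    (hrep Rt R (smoothPair_swap T h) O) hlog m (by omega)
  obtain ⟨Cs, hCs0, hst⟩ := exists_step T h O m
  set C1 := C2 * Cs + Cs + 1 with hC1
  have hC11 : 1 ≤ C1 := by rw [hC1]; linarith [mul_nonneg hC2 hCs0]
  set Λ := 6 * C1 with hΛ
  have hΛ1 : 1 ≤ Λ := by rw [hΛ]; linarith
  have hΛk : 0 < Λ ^ k := pow_pos (by linarith) k
  set η := 1 / (6 * C1 * Λ ^ k) with hη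
  have hη0 : 0 < η := by positivity
  obtain ⟨c, hc0, hbd⟩ := hrb η hη0
  set e0 := 1 / (6 * C1 * (C2 + 1) * Λ ^ k) with he0
  have he00 : 0 < e0 := by positivity
  set θ := C1 * (1 / Λ) ^ m + C1 * (η + C2 * e0) with hθ
  have hθ0 : 0 ≤ θ := by positivity
  have hθk : θ * Λ ^ k ≤ 1 / 2 := by
    have e1 : C1 * (1 / Λ) ^ m * Λ ^ k = C1 / Λ := by
      rw [hm, show O.order + 5 = k + 1 by omega, div_pow, one_pow, pow_succ]
      field_simp
    have e2 : C1 * η * Λ ^ k = 1 / 6 := by rw [hη]; field_simp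
    have e3 : C1 * (C2 * e0) * Λ ^ k ≤ 1 / 6 := by
      have e4 : C1 * (C2 * e0) * Λ ^ k = C2 / (6 * (C2 + 1)) := by rw [he0]; field_simp
      rw [e4, div_le_div_iff₀ (by positivity) (by norm_num)]
      linarith
    have e5 : C1 / Λ = 1 / 6 := by rw [hΛ]; field_simp
    rw [hθ]
    linarith [e1, e2, e3, e5]
  have hstep : ∀ e, 0 < e → e ≤ e0 → e ≤ 1 → ∀ y, 0 ≤ y →
      (∀ ψ : Form M, |O.φ ψ| ≤ y * S.sN m (e / Λ) ψ.1) →
        ∀ ψ : Form M, |O.φ ψ| ≤ (C1 * c + θ * y) * S.sN m e ψ.1 := by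
    intro e he hee he1 y hy hP ψ
    set a := e / Λ with ha
    have ha0 : 0 < a := div_pos he (by linarith)
    have hae : a ≤ e := div_le_self he.le hΛ1
    refine (hst a e ha0 hae he1 _ y (by positivity) hy (hbd a ha0 (hae.trans he1) y hy hP)
      hP ψ).trans (mul_le_mul_of_nonneg_right ?_ (sN_nonneg S m he.le _))
    rw [show a / e = 1 / Λ by rw [ha]; field_simp]
    have hk1 : C2 * Cs ≤ C1 := by rw [hC1]; linarith
    have hk2 : Cs ≤ C1 := by rw [hC1]; linarith [mul_nonneg hC2 hCs0]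
    calc Cs * (C2 * (c + (η + C2 * a) * y) + (1 / Λ) ^ m * y)
        = C2 * Cs * (c + (η + C2 * a) * y) + Cs * ((1 / Λ) ^ m * y) := by ring
      _ ≤ C1 * (c + (η + C2 * e0) * y) + C1 * ((1 / Λ) ^ m * y) := by
          gcongr
          exact hae.trans hee
      _ = C1 * c + θ * y := by rw [hθ]; ring
  obtain ⟨Cb, hCb0, hsob⟩ := sobolev S O.order
  have hP0 : ∀ e, 0 < e → e ≤ 1 → ∀ ψ : Form M,
      |O.φ ψ| ≤ |O.bound| * Cb / e ^ k * S.sN m e ψ.1 := by
    intro e he he1 ψ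
    refine (O.φ_bound ψ).trans ?_
    calc O.bound * S.cN O.order ψ.1 ≤ |O.bound| * S.cN O.order ψ.1 :=
          mul_le_mul_of_nonneg_right (le_abs_self _) (T.cN_nonneg _ _)
      _ ≤ |O.bound| * (Cb * S.sN m e ψ.1 / e ^ k) := by
          refine mul_le_mul_of_nonneg_left ?_ (abs_nonneg _)
          rw [le_div_iff₀ (pow_pos he k), mul_comm]
          exact (hsob e he he1 ψ).trans
            (mul_le_mul_of_nonneg_left (sN_mono S (by omega) he.le _) hCb0)
      _ = _ := by ring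
  obtain ⟨B, hB0, hB⟩ := pred_bdd
    (P := fun e y => ∀ ψ : Form M, |O.φ ψ| ≤ y * S.sN m e ψ.1 ∨ e ≤ 0)
    (C := C1 * c) (A := |O.bound| * Cb) (k := k)
    (fun e y z hyz hP ψ => (hP ψ).elim (fun h' => (le_or_gt e 0).elim Or.inr fun he =>
      Or.inl (h'.trans (mul_le_mul_of_nonneg_right hyz (sN_nonneg S m he.le _)))) Or.inr)
    (fun e y hP ψ => (le_or_gt e 0).elim Or.inr fun he => Or.inl <| by
      refine le_of_forall_pos_le_add fun ε hε => ?_
      have hs := sN_nonneg S m he.le ψ.1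
      rcases hP (ε / (S.sN m e ψ.1 + 1)) (by positivity) ψ with h' | h'
      · refine h'.trans ?_
        rw [add_mul]
        refine add_le_add le_rfl ?_
        rw [div_mul_eq_mul_div, div_le_iff₀ (by positivity)]
        nlinarith
      · linarith)
    hΛ1 hθ0 hθk (by positivity) (by positivity) he00
    (fun e he hee he1 y hy hP ψ => Or.inl <|
      hstep e he hee he1 y hy (fun ψ => (hP ψ).elim id fun h' => absurd h' (not_le.2 (div_pos he (by linarith)))) ψ)
    (fun e he he1 ψ => Or.inl (hP0 e he he1 ψ))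
  have hB' : ∀ e, 0 < e → e ≤ 1 → ∀ ψ : Form M, |O.φ ψ| ≤ B * S.sN m e ψ.1 := fun e he he1 ψ =>
    (hB e he he1 ψ).elim id fun h' => absurd h' (not_le.2 he)
  refine ⟨fun K hK => ?_, C2 * (c + (η + C2) * B), fun w => ?_⟩
  · obtain ⟨Cl, hl⟩ := hlog O K hK m (by omega)
    exact ⟨Cl + Cl * B, fun e he he1 x => (hl e he he1 B (hB' e he he1) x).trans_eq (by ring)⟩
  · have hlim : Tendsto (fun e => O.φ (R e w)) (𝓝[>] 0) (𝓝 (O.φ w)) := by
      rw [tendsto_iff_norm_sub_tendsto_zero]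
      refine squeeze_zero' (Eventually.of_forall fun e => norm_nonneg _)
        (Eventually.of_forall fun e => ?_)
        (by simpa using (h.left.conv O.order w).const_mul O.bound)
      rw [← map_sub, Real.norm_eq_abs]
      exact O.φ_bound _
    refine le_of_tendsto (continuous_abs.continuousAt.tendsto.comp hlim) ?_
    have hev : ∀ᶠ e in 𝓝[>] (0 : ℝ), 0 < e ∧ e ≤ 1 :=
      (eventually_mem_nhdsWithin).and (Eventually.filter_mono nhdsWithin_le_nhds
        (eventually_le_nhds (by norm_num : (0 : ℝ) < 1)))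
    filter_upwards [hev] with e he
    refine (hbd e he.1 he.2 B hB0 (hB' e he.1 he.2) w).trans ?_
    refine mul_le_mul_of_nonneg_right (mul_le_mul_of_nonneg_left ?_ hC2) (T.l2_nonneg w)
    gcongr
    exact mul_le_of_le_one_right hC2 he.2

end Vale.Agent.P204.Full.Square
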