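import Vale.Agent.P204.Full.End.Main
import Vale.Agent.P204.Full.End.WgBounds
import Vale.Agent.P204.Full.Global.Vol
import Vale.Agent.P204.Full.Square.Covector

/-!
P204: pointwise positivity of the representative of a smoothed positive functional, by duality.
The integrals against all nonnegative smooth functions give the inequalities at every point; the
test forms `df ∧ dᶜf` give every complex line.
-/

namespace Vale.Agent.P204.Full.Square

open MeasureTheory Set Metric Filter Topology Matrix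
open scoped Manifold ContDiff

set_option linter.unusedSectionVars false

universe u

variable {M : Type u} [TopologicalSpace M] [ChartedSpace E4 M] [IsManifold (𝓡 4) ∞ M]
  [MeasurableSpace M] [BorelSpace M] [T2Space M] [CompactSpace M]
variable {S : Setup M}

/-- a continuous function with nonnegative integrals against nonnegative smooth functions -/
theorem nonneg_of_forall_integral {G : M → ℝ} (hG : Continuous G)
    (h : ∀ f : M → ℝ, IsSmoothFn f → (∀ x, 0 ≤ f x) → 0 ≤ ∫ x, f x * G x ∂S.vol) (x0 : M) :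
    0 ≤ G x0 := by
  by_contra hneg
  push Not at hneg
  obtain ⟨r, hr, hball⟩ : ∃ r > 0, ∀ y, S.bump r x0 y ≠ 0 → G y < 0 := by
    set K := {y | 0 ≤ G y}
    have hK : IsCompact K := (isClosed_le continuous_const hG).isCompact
    have hcl : IsClosed (S.at_.emb '' K) := (hK.image S.continuous_emb).isClosed
    have hx : S.at_.emb x0 ∉ S.at_.emb '' K := by
      rintro ⟨y, hy, he⟩
      rw [S.at_.emb_injective he] at hy
      exact absurd hy (not_le.2 hneg)
    obtain ⟨δ, hδ, hb⟩ := Metric.isOpen_iff.1 hcl.isOpen_compl _ hx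
    refine ⟨δ / 2, by positivity, fun y hy => not_le.1 fun hy0 => ?_⟩
    refine hb (?_ : S.at_.emb y ∈ ball (S.at_.emb x0) δ) ⟨y, hy0, rfl⟩
    rw [mem_ball, dist_comm, dist_eq_norm]
    by_contra hd
    push Not at hd
    refine hy ?_
    rw [Setup.bump, Real.smoothTransition.zero_iff_nonpos, sub_nonpos,
      le_div_iff₀ (by positivity)]
    nlinarith [norm_nonneg (S.at_.emb x0 - S.at_.emb y)]
  set f := S.bump r x0
  have hf : IsSmoothFn f := S.isSmoothFn_bump r x0
  have hf1 : f x0 = 1 := Real.smoothTransition.one_of_one_le (by simp)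
  have hf0 : ∀ x, 0 ≤ f x := fun x => Real.smoothTransition.nonneg _
  have hint := h f hf hf0
  set φ := fun x => -(f x * G x) with hφ
  have hφ0 : ∀ x, 0 ≤ φ x := fun x => by
    rcases eq_or_ne (f x) 0 with h0 | h0
    · simp [hφ, h0]
    · have := mul_nonneg (hf0 x) (neg_nonneg.2 (hball x h0).le)
      simp only [hφ]; linarith
  have hφc : Continuous φ := (hf.continuous.mul hG).neg
  have hle : ∫ x, φ x ∂S.vol ≤ 0 := by
    simp only [hφ]; rw [integral_neg]; linarith
  rw [S.integral_vol hφc] at hle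
  obtain ⟨i, hi⟩ := S.exists_rho_ne x0
  obtain ⟨hs, hb⟩ := S.at_.rho_support i (subset_tsupport _ hi)
  set c := S.at_.chart i with hc
  have hy4 : ∀ y ∈ ball (0 : E4) 1, y ∈ closedBall (0 : E4) 4 := fun y hy =>
    closedBall_subset_closedBall (by norm_num) (ball_subset_closedBall hy)
  have hnn : ∀ k, 0 ≤ ∫ y in ball (0 : E4) 1, S.volDens k y * φ ((S.at_.chart k).symm y) := fun k =>
    setIntegral_nonneg measurableSet_ball fun y hy =>
      mul_nonneg (S.volDens_nonneg k (hy4 y hy)) (hφ0 _)
  set g := fun y => S.volDens i y * φ (c.symm y) with hg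
  have hgc : ContinuousOn g (closedBall (0 : E4) 4) :=
    (S.continuousOn_volDens i).mul
      (hφc.comp_continuousOn (c.symm.continuousOn.mono (S.at_.ball_subset i)))
  have hpos : 0 < ∫ y in ball (0 : E4) 1, g y := by
    rw [setIntegral_pos_iff_support_of_nonneg_ae]
    · set y0 := c x0
      have hg0 : 0 < g y0 := by
        have e1 : c.symm y0 = x0 := c.left_inv hs
        simp only [hg, e1, hφ, hf1, one_mul]
        refine mul_pos ?_ (by linarith)
        refine mul_pos ?_ (by linarith [S.wdg_read_F_pos i (hy4 y0 hb)])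
        rw [← hc, e1]
        exact lt_of_le_of_ne (S.at_.rho_nonneg i x0) (Ne.symm hi)
      have hca : ContinuousAt g y0 :=
        hgc.continuousAt (mem_of_superset (isOpen_ball.mem_nhds hb) hy4)
      obtain ⟨O, hO, hOo, hyO⟩ := _root_.mem_nhds_iff.1
        (Filter.inter_mem (hca.eventually (eventually_gt_nhds hg0)) (isOpen_ball.mem_nhds hb))
      refine (hOo.measure_pos volume ⟨y0, hyO⟩).trans_le (measure_mono fun y hy => ?_)
      exact ⟨ne_of_gt (hO hy).1, (hO hy).2⟩
    · filter_upwards [ae_restrict_mem measurableSet_ball] with y hy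
      exact mul_nonneg (S.volDens_nonneg i (hy4 y hy)) (hφ0 _)
    · exact (hgc.integrableOn_compact (isCompact_closedBall _ _)).mono_set hy4
  have := Finset.single_le_sum (fun k _ => hnn k) (Finset.mem_univ i)
  linarith

/-- the coefficients of a nonnegative invariant form are semipositive in the adapted frame -/
theorem semipos_read {w : M → E4 → E4 → ℝ} (hw : IsTwoForm w) (hi : p11 S.J w = w)
    (hp : NonnegJ S.J w) (i : Fin S.at_.n) {y : E4} (hy : y ∈ closedBall (0 : E4) 4) :
    Heart.Semipos (pullC (frame (readJ (S.at_.chart i) S.J y)) (S.read i w y)) := by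
  have hA := S.near i hy
  have hc := S.at_.mem_maximal i
  have ht := S.at_.ball_subset i hy
  refine (hA.semipos_iff (S.anti_read i hw.isAltField y)).2 ⟨?_, S.pos_read hw.isAltField hp hc ht⟩
  have h := readC_p11 S.isJ hw.isAltField hc ht
  rw [hi] at h
  show Alg.Inv _ (readC (S.at_.chart i) w y)
  rw [h]
  exact Alg.inv_p11C hA.1 _

/-- nonnegative invariant forms pair nonnegatively -/
theorem wg_nonneg_of_nonnegJ {w η : M → E4 → E4 → ℝ} (hw : IsTwoForm w) (hη : IsTwoForm η)
    (hwi : p11 S.J w = w) (hwp : NonnegJ S.J w) (hηi : p11 S.J η = η) (hηp : NonnegJ S.J η)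
    (x : M) : 0 ≤ wg S.F.1 w η x := by
  obtain ⟨i, hs, hy⟩ := S.exists_chart_at x
  have hy4 : S.at_.chart i x ∈ closedBall (0 : E4) 4 :=
    closedBall_subset_closedBall (by norm_num) hy
  rw [S.wg_chart i hw.isAltField hη.isAltField hs]
  have hA := S.near i hy4
  have e := hA.wdg_frame (S.anti_read i hw.isAltField (S.at_.chart i x))
    (S.anti_read i hη.isAltField (S.at_.chart i x))
  have h0 := Alg.wdg_semipos_nonneg (semipos_read hw hwi hwp i hy4)
    (semipos_read hη hηi hηp i hy4)
  rw [e] at h0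
  refine div_nonneg (mul_nonneg zero_le_two ?_) (S.wdg_read_F_pos i hy4).le
  exact nonneg_of_mul_nonneg_right h0 (by linarith [hA.det_frame.1])

/-- the square of a nonnegative invariant form is nonnegative -/
theorem pair_self_nonneg (H : Form M) (hi : p11 S.J H.1 = H.1) (hp : NonnegJ S.J H.1) :
    0 ≤ S.pair H.1 H.1 :=
  integral_nonneg fun x => wg_nonneg_of_nonnegJ H.2 H.2 hi hp hi hp x

/-- nonnegative invariant forms are controlled by their wedge product with `F` -/
theorem exists_nrm_le_wg_F (S : Setup M) : ∃ C, 0 ≤ C ∧ ∀ w : M → E4 → E4 → ℝ, IsTwoForm w →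
    p11 S.J w = w → NonnegJ S.J w → ∀ x, S.nrm w x ≤ C * wg S.F.1 w S.F.1 x := by
  obtain ⟨m, hm, hF⟩ := S.exists_F_lower
  obtain ⟨d, D, hd, hD, hdD⟩ := S.exists_density_bounds
  refine ⟨64 / m * D, by positivity, fun w hw hi hp x => ?_⟩
  calc S.nrm w x ≤ ∑ k, S.at_.rho k x * (64 / m * D * wg S.F.1 w S.F.1 x) := by
        refine Finset.sum_le_sum fun k _ => ?_
        rcases eq_or_ne (S.at_.rho k x) 0 with h0 | h0
        · simp [h0]
        refine mul_le_mul_of_nonneg_left ?_ (S.at_.rho_nonneg k x)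
        obtain ⟨hs, hb⟩ := S.at_.rho_support k (subset_tsupport _ h0)
        have hy3 : S.at_.chart k x ∈ closedBall (0 : E4) 3 :=
          closedBall_subset_closedBall (by norm_num) (ball_subset_closedBall hb)
        have hy4 := closedBall_subset_closedBall (show (3 : ℝ) ≤ 4 by norm_num) hy3
        set y := S.at_.chart k x
        have hA := S.near k hy4
        obtain ⟨hi', hp'⟩ := (hA.semipos_iff (S.anti_read k hw.isAltField y)).1
          (semipos_read hw hi hp k hy4)
        have hn := hA.norm_le_wdg (S.anti_read k hw.isAltField y) hi' hp'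
          (S.anti_read k S.F.2.isAltField y) hm.le (hF k y hy3)
        have h0' := hdD k y hy3
        have hw0 : 0 ≤ wdg (S.read k w y) (S.read k S.F.1 y) := by
          linarith [mul_nonneg hm.le (norm_nonneg (S.read k w y))]
        rw [S.wg_chart k hw.isAltField S.F.2.isAltField hs]
        have h1 : ‖S.read k w y‖ ≤ 64 / m * wdg (S.read k w y) (S.read k S.F.1 y) := by
          rw [div_mul_eq_mul_div, le_div_iff₀ hm]; linarith
        refine h1.trans ?_
        rw [mul_assoc (64 / m)]
        refine mul_le_mul_of_nonneg_left ?_ (by positivity)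
        rw [← mul_div_assoc, le_div_iff₀ (by linarith)]
        linarith [mul_le_mul_of_nonneg_left h0'.2 hw0, mul_nonneg hD.le hw0]
    _ = _ := by rw [← Finset.sum_mul, S.at_.rho_sum, one_mul]

/-- a function with prescribed differential at a point of an atlas chart -/
theorem exists_test (S : Setup M) (i : Fin S.at_.n) {y : E4} (hy : y ∈ ball (0 : E4) 1)
    (ℓ : Fin 4 → ℝ) : ∃ f : M → ℝ, IsSmoothFn f ∧
      S.read i (dfdcf S.J f) y = wedge11 ((readJ (S.at_.chart i) S.J y).transpose *ᵥ ℓ) ℓ := by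
  set c := S.at_.chart i
  have hc : IsChart c := S.at_.mem_maximal i
  let b : ContDiffBump (0 : E4) := ⟨2, 3, by norm_num, by norm_num⟩
  set Λ : E4 →L[ℝ] ℝ := ∑ p, ℓ p • (EuclideanSpace.proj p : E4 →L[ℝ] ℝ) with hΛ
  set g : E4 → ℝ := fun z => b z * Λ z with hg
  have hgs : ContDiff ℝ ∞ g := b.contDiff.mul Λ.contDiff
  have hg0 : ∀ z ∈ c.target, z ∉ closedBall (0 : E4) 3 → g z = 0 := fun z _ hz => by
    have : b z = 0 := b.zero_of_le_dist (by
      rw [mem_closedBall] at hz; exact (not_le.1 hz).le)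
    simp [hg, this]
  have hsub : closedBall (0 : E4) 3 ⊆ c.target :=
    (closedBall_subset_closedBall (by norm_num)).trans (S.at_.ball_subset i)
  have hfs : IsSmoothFn (extF c g) :=
    isSmoothFn_extF hc (isCompact_closedBall _ _) hsub hgs.contDiffOn hg0
  refine ⟨extF c g, hfs, ?_⟩
  have hyt : y ∈ c.target := hsub (closedBall_subset_closedBall (by norm_num)
    (ball_subset_closedBall hy))
  have hev : (fun z => extF c g (c.symm z)) =ᶠ[𝓝 y] fun z => Λ z := by
    filter_upwards [c.open_target.mem_nhds hyt, isOpen_ball.mem_nhds hy] with z hz hz1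
    have hz2 : b z = 1 := b.one_of_mem_closedBall
      (closedBall_subset_closedBall (show (1 : ℝ) ≤ 2 by norm_num) (ball_subset_closedBall hz1))
    rw [extF_symm c g hz]
    simp [hg, hz2]
  have hpd : (fun p => pd (fun z => extF c g (c.symm z)) p y) = ℓ := by
    funext p
    rw [pd, hev.fderiv_eq, Λ.fderiv, hΛ]
    simp [ev4_coord]
  show readC c (dfdcf S.J (extF c g)) y = _
  rw [readC_dfdcf S.isJ hfs hc hyt, hpd]

/-- pointwise positivity of the representative, with the majorant densities at two scales -/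
theorem exists_pointwise {Rt : ℝ → Form M →ₗ[ℝ] Form M} (hop : Mollif S Rt)
    (O : Obstruction S) (hmaj : ∀ r, 0 < r → MajBound S O.T r (dens S O.T r)) :
    ∃ C K₀ K₂, 0 ≤ C ∧ 0 < K₀ ∧ 0 < K₂ ∧ ∀ e, 0 < e → e ≤ 1 → ∀ TR : Form M,
      (∀ η : Form M, S.pair TR.1 η.1 = O.T (Rt e η)) → ∀ x,
        (∀ v, -(C * e ^ 2 * dens S O.T (K₂ * e) x * S.F.1 x v (S.J x v)) ≤
          p11 S.J TR.1 x v (S.J x v)) ∧
        S.nrm (p11 S.J TR.1) x ≤ C * dens S O.T (K₀ * e) x := by
  obtain ⟨Ck, K, K₁, K₂, hCk, hK, -, hK₂, hker⟩ := exists_kernel_bounds hop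
  obtain ⟨Cn, hCn, hnw⟩ := exists_nrm_le_wg_F S
  obtain ⟨C₀, hC₀, hread⟩ := S.exists_read_le_nrm
  obtain ⟨m, hm, hFm⟩ := S.exists_F_lower
  obtain ⟨d, D, hd, hD, hdD⟩ := S.exists_density_bounds
  set BF := S.cN 0 S.F.1
  have hBF : 0 ≤ BF := S.cN_nonneg 0 _
  set Kz := Ck * Cn * (12 * BF) * (D / (2 * d)) * 256 with hKz
  have hKz0 : 0 ≤ Kz := by positivity
  refine ⟨2 * Kz / m + 24 * (2 * Kz), K, K₂, by positivity, hK, hK₂,
    fun e he he1 TR hTR x => ?_⟩
  have hT : IsPosCur S O.T := isPosCur_T O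
  set P := p11L S.isJ
  have hP : IsInvPart S P := S.isInvPart_p11L
  have hdc : ∀ r, Continuous (dens S O.T r) := fun r => S.continuous_dens ⟨_, O.T_bound⟩ r
  have hd0 : ∀ r, 0 < r → ∀ z, 0 ≤ dens S O.T r z := fun r hr z => by
    rw [dens, ballVal_eq]
    refine div_nonneg (hT.nonneg _ (p11_scalar_mul_F S _ _ (bumpForm_apply S r z))
      fun z' v => ?_) (by positivity)
    rw [bumpForm_apply]
    refine mul_nonneg (Real.smoothTransition.nonneg _) ?_
    rcases eq_or_ne v 0 with rfl | hv
    · rw [S.F.2.2.1, (S.F.2.1 z' _).map_zero, neg_zero]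
    · exact (S.F_pos z' v hv).le
  have hi2 : ∀ {F1 F2 : M → ℝ}, Continuous F1 → Continuous F2 →
      Integrable (fun z => F1 z * F2 z) S.vol := fun h1 h2 => S.integrable_of_continuous (h1.mul h2)
  -- the integrated inequalities
  have hmul : ∀ (f : M → ℝ) (hf : IsSmoothFn f), (∀ z, 0 ≤ f z) → ∀ (w : Form M) r,
      S.pair TR.1 (fmul f hf w).1 = ∫ z, f z * wg S.F.1 TR.1 w.1 z ∂S.vol ∧
      ∫ z, S.nrm (fmul f hf w).1 z * dens S O.T r z ∂S.vol =
        ∫ z, f z * (S.nrm w.1 z * dens S O.T r z) ∂S.vol := by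
    intro f hf hf0 w r
    constructor
    · refine integral_congr_ae (Eventually.of_forall fun z => ?_)
      rw [fmul_coe, wg_comm, wg_smulFn_left, wg_comm]
    · refine integral_congr_ae (Eventually.of_forall fun z => ?_)
      simp only [fmul_coe, Setup.nrm, Setup.read, readC_smulFn, Finset.sum_mul, Finset.mul_sum]
      refine Finset.sum_congr rfl fun k _ => ?_
      rcases eq_or_ne (S.at_.rho k z) 0 with h0 | h0
      · simp [h0]
      rw [norm_smul, (S.at_.chart k).left_inv (S.at_.rho_support k (subset_tsupport _ h0)).1,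
        Real.norm_eq_abs, abs_of_nonneg (hf0 z)]
      ring
  have hlow : ∀ w : Form M, p11 S.J w.1 = w.1 → NonnegJ S.J w.1 → ∀ z,
      -(Ck * e ^ 2 * (S.nrm w.1 z * dens S O.T (K₂ * e) z)) ≤ wg S.F.1 TR.1 w.1 z := by
    intro w hw hwp z
    have hc1 : Continuous (wg S.F.1 TR.1 w.1) := S.continuous_wg TR.2 w.2
    have hc2 : Continuous fun z => Ck * e ^ 2 * (S.nrm w.1 z * dens S O.T (K₂ * e) z) :=
      continuous_const.mul ((S.continuous_nrm w.2).mul (hdc _))
    have h := nonneg_of_forall_integral (S := S) (hc1.add hc2) (fun f hf hf0 => ?_) z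
    · simp only [Pi.add_apply] at h
      linarith
    have hk := (hker O.T hT P hP e he he1 _ (fmul f hf w)).2.2 (hmaj (K₂ * e) (by positivity))
      (by rw [fmul_coe, p11_eq_self_iff]
          intro z' u v
          simp only [smulFn, (p11_eq_self_iff _ _).1 hw])
      (fun z' v => mul_nonneg (hf0 z') (hwp z' v))
    rw [← hTR, (hmul f hf hf0 w (K₂ * e)).1, (hmul f hf hf0 w (K₂ * e)).2] at hk
    simp only [Pi.add_apply, mul_add]
    rw [integral_add (hi2 hf.continuous hc1) (hi2 hf.continuous hc2)]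
    have e1 : ∫ z, f z * (Ck * e ^ 2 * (S.nrm w.1 z * dens S O.T (K₂ * e) z)) ∂S.vol =
        Ck * e ^ 2 * ∫ z, f z * (S.nrm w.1 z * dens S O.T (K₂ * e) z) ∂S.vol := by
      rw [← integral_const_mul]
      exact integral_congr_ae (Eventually.of_forall fun z => by ring)
    linarith
  have hup : ∀ w : Form M, ∀ z,
      |wg S.F.1 TR.1 w.1 z| ≤ Ck * (S.nrm w.1 z * dens S O.T (K * e) z) := by
    intro w z
    have hc1 : Continuous (wg S.F.1 TR.1 w.1) := S.continuous_wg TR.2 w.2
    have hc2 : Continuous fun z => Ck * (S.nrm w.1 z * dens S O.T (K * e) z) :=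
      continuous_const.mul ((S.continuous_nrm w.2).mul (hdc _))
    have key : ∀ f : M → ℝ, IsSmoothFn f → (∀ z, 0 ≤ f z) →
        |∫ z, f z * wg S.F.1 TR.1 w.1 z ∂S.vol| ≤
          ∫ z, f z * (Ck * (S.nrm w.1 z * dens S O.T (K * e) z)) ∂S.vol := by
      intro f hf hf0
      have hk := (hker O.T hT P hP e he he1 _ (fmul f hf w)).1 (hmaj (K * e) (by positivity))
      rw [← hTR, (hmul f hf hf0 w (K * e)).1, (hmul f hf hf0 w (K * e)).2] at hk
      refine hk.trans_eq ?_
      rw [← integral_const_mul]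
      exact integral_congr_ae (Eventually.of_forall fun z => by ring)
    rw [abs_le]
    constructor
    · have h := nonneg_of_forall_integral (S := S) (hc1.add hc2) (fun f hf hf0 => ?_) z
      · simp only [Pi.add_apply] at h
        linarith
      simp only [Pi.add_apply, mul_add]
      rw [integral_add (hi2 hf.continuous hc1) (hi2 hf.continuous hc2)]
      linarith [(abs_le.1 (key f hf hf0)).1]
    · have h := nonneg_of_forall_integral (S := S) (hc2.sub hc1) (fun f hf hf0 => ?_) z
      · simp only [Pi.sub_apply] at h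
        linarith
      simp only [Pi.sub_apply, mul_sub]
      rw [integral_sub (hi2 hf.continuous hc2) (hi2 hf.continuous hc1)]
      linarith [(abs_le.1 (key f hf hf0)).2]
  -- every complex line, in every atlas chart around `x`
  have hline : ∀ k, S.at_.rho k x ≠ 0 → ∀ v : Fin 4 → ℝ,
      -(2 * Kz * e ^ 2 * dens S O.T (K₂ * e) x * ‖v‖ ^ 2) ≤
          Alg.ev2 (S.read k (p11 S.J TR.1) (S.at_.chart k x)) v
            (readJ (S.at_.chart k) S.J (S.at_.chart k x) *ᵥ v) ∧
        |Alg.ev2 (S.read k (p11 S.J TR.1) (S.at_.chart k x)) v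
            (readJ (S.at_.chart k) S.J (S.at_.chart k x) *ᵥ v)| ≤
          2 * Kz * dens S O.T (K * e) x * ‖v‖ ^ 2 := by
    intro k hk v
    obtain ⟨hs, hb⟩ := S.at_.rho_support k (subset_tsupport _ hk)
    set c := S.at_.chart k
    set y := c x
    have hy3 : y ∈ closedBall (0 : E4) 3 :=
      closedBall_subset_closedBall (by norm_num) (ball_subset_closedBall hb)
    have hy4 := closedBall_subset_closedBall (show (3 : ℝ) ≤ 4 by norm_num) hy3
    have hA := S.near k hy4
    obtain ⟨ℓ, hℓ, hev⟩ := exists_covector hA v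
    obtain ⟨f, hf, hfr⟩ := exists_test S k hb ℓ
    set w : Form M := ⟨dfdcf S.J f, isTwoForm_dfdcf S.isJ hf⟩
    have hwi : p11 S.J w.1 = w.1 := p11_dfdcf S.isJ f
    have hwp : NonnegJ S.J w.1 := nonnegJ_dfdcf S.isJ f
    set b := S.read k (p11 S.J TR.1) y with hb'
    have hTp := isTwoForm_p11 S.isJ TR.2
    have hbi : Alg.Inv (readJ c S.J y) b := by
      show Alg.Inv _ (readC c (p11 S.J TR.1) y)
      rw [readC_p11 S.isJ TR.2.isAltField (S.at_.mem_maximal k) (c.map_source hs)]
      exact Alg.inv_p11C hA.1 _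
    rw [hev b (S.anti_read k hTp.isAltField y) hbi, ← hfr]
    have hDy := hdD k y hy3
    have hwg : wg S.F.1 TR.1 w.1 x =
        2 * wdg b (S.read k w.1 y) / wdg (S.read k S.F.1 y) (S.read k S.F.1 y) := by
      have h1 := S.wg_eq_p11_add_pm TR w x
      rw [hwi, pm_of_inv_zero hwi] at h1
      have h2 : wg S.F.1 (pm S.J TR.1) (0 : M → E4 → E4 → ℝ) x = 0 := by
        rw [← zero_smul ℝ (0 : M → E4 → E4 → ℝ), wg_smul_right, zero_mul]
      rw [h1, h2, add_zero]
      exact S.wg_chart k hTp.isAltField w.2.isAltField hs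
    have hz : S.nrm w.1 x ≤ Cn * (12 * BF) * (256 / d) * ‖v‖ ^ 2 := by
      refine (hnw w.1 w.2 hwi hwp x).trans ?_
      rw [mul_assoc Cn, mul_assoc Cn]
      refine mul_le_mul_of_nonneg_left ?_ hCn
      rw [S.wg_chart k w.2.isAltField S.F.2.isAltField hs]
      have hwn : ‖S.read k w.1 y‖ ≤ 256 * ‖v‖ ^ 2 := by
        rw [hfr]
        refine (norm_wedge11_le _ _).trans ?_
        have h1 := Alg.norm_mulVec_le (A := (readJ c S.J y).transpose) (r := 2)
          (fun p q => hA.norm_le_two q p) ℓ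
        have h2 := pow_le_pow_left₀ (norm_nonneg ℓ) hℓ 2
        nlinarith [norm_nonneg ℓ]
      have hFn : ‖S.read k S.F.1 y‖ ≤ BF := S.read_le_cN k S.F.2 hy3
      calc 2 * wdg (S.read k w.1 y) (S.read k S.F.1 y) /
            wdg (S.read k S.F.1 y) (S.read k S.F.1 y)
          ≤ 2 * (6 * ‖S.read k w.1 y‖ * ‖S.read k S.F.1 y‖) / d := by
            refine (div_le_div_of_nonneg_right (mul_le_mul_of_nonneg_left
              ((le_abs_self _).trans (Heart.wdg_abs_le _ _)) zero_le_two)
              (by linarith)).trans ?_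
            exact div_le_div_of_nonneg_left (by positivity) hd hDy.1
        _ ≤ 2 * (6 * (256 * ‖v‖ ^ 2) * BF) / d := by gcongr
        _ = _ := by ring
    have hdet := hA.det_frame
    have hid : wdg b (S.read k w.1 y) =
        wg S.F.1 TR.1 w.1 x * (wdg (S.read k S.F.1 y) (S.read k S.F.1 y) / 2) := by
      rw [hwg]
      have : wdg (S.read k S.F.1 y) (S.read k S.F.1 y) ≠ 0 := by linarith [hDy.1]
      field_simp
    have hD2 : 0 ≤ wdg (S.read k S.F.1 y) (S.read k S.F.1 y) / 2 := by linarith [hDy.1]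
    have hd2 := hd0 (K₂ * e) (by positivity) x
    have hdK := hd0 (K * e) (by positivity) x
    have hscale : ∀ τ : ℝ, 0 ≤ τ →
        (frame (readJ c S.J y)).det * (Ck * (S.nrm w.1 x * τ) *
          (wdg (S.read k S.F.1 y) (S.read k S.F.1 y) / 2)) ≤ 2 * Kz * τ * ‖v‖ ^ 2 := by
      intro τ hτ
      calc (frame (readJ c S.J y)).det * (Ck * (S.nrm w.1 x * τ) *
            (wdg (S.read k S.F.1 y) (S.read k S.F.1 y) / 2))
          ≤ 2 * (Ck * (Cn * (12 * BF) * (256 / d) * ‖v‖ ^ 2 * τ) * (D / 2)) := by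
            refine mul_le_mul hdet.2 (mul_le_mul (mul_le_mul_of_nonneg_left
              (mul_le_mul_of_nonneg_right hz hτ) hCk.le) (by linarith [hDy.2]) hD2
              (by positivity)) ?_ zero_le_two
            exact mul_nonneg (mul_nonneg hCk.le (mul_nonneg (S.nrm_nonneg _ x) hτ)) hD2
        _ = 2 * Kz * τ * ‖v‖ ^ 2 := by rw [hKz]; ring
    rw [show S.read k (dfdcf S.J f) y = S.read k w.1 y from rfl, hid]
    constructor
    · have h := mul_le_mul_of_nonneg_left (mul_le_mul_of_nonneg_right (hlow w hwi hwp x) hD2)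
        (by linarith [hdet.1] : (0 : ℝ) ≤ (frame (readJ c S.J y)).det)
      refine le_trans ?_ h
      have h2 := mul_le_mul_of_nonneg_left (hscale _ hd2) (sq_nonneg e)
      linarith
    · rw [abs_mul, abs_mul, abs_of_nonneg hD2,
        abs_of_nonneg (by linarith [hdet.1] : (0 : ℝ) ≤ (frame (readJ c S.J y)).det)]
      refine le_trans ?_ (hscale _ hdK)
      exact mul_le_mul_of_nonneg_left (mul_le_mul_of_nonneg_right (hup w x) hD2)
        (by linarith [hdet.1])
  have hm0 : 0 ≤ 2 * Kz / m := by positivity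
  refine ⟨fun v => ?_, ?_⟩
  · obtain ⟨i, hi⟩ := S.exists_rho_ne x
    obtain ⟨hs, hb⟩ := S.at_.rho_support i (subset_tsupport _ hi)
    have hy3 : S.at_.chart i x ∈ closedBall (0 : E4) 3 :=
      closedBall_subset_closedBall (by norm_num) (ball_subset_closedBall hb)
    rw [S.lineVal_eq (isTwoForm_p11 S.isJ TR.2).isAltField i hs,
      S.lineVal_eq S.F.2.isAltField i hs]
    set ξ := (dMap (S.at_.chart i) x v).ofLp
    have h := (hline i hi ξ).1
    have hF' := hFm i _ hy3 ξ
    have hd2 := hd0 (K₂ * e) (by positivity) x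
    have hA0 : 0 ≤ e ^ 2 * dens S O.T (K₂ * e) x := by positivity
    have hQ0 := (mul_nonneg hm.le (sq_nonneg ‖ξ‖)).trans hF'
    refine le_trans (neg_le_neg ?_) h
    have h1 : 2 * Kz * (e ^ 2 * dens S O.T (K₂ * e) x) * ‖ξ‖ ^ 2 =
        2 * Kz / m * (e ^ 2 * dens S O.T (K₂ * e) x) * (m * ‖ξ‖ ^ 2) := by field_simp
    have h2 := mul_le_mul_of_nonneg_left hF' (mul_nonneg hm0 hA0)
    have h3 : 0 ≤ 24 * (2 * Kz) * (e ^ 2 * dens S O.T (K₂ * e) x) := by positivity
    have h4 := mul_nonneg h3 hQ0
    linarith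
  · have hdK := hd0 (K * e) (by positivity) x
    calc S.nrm (p11 S.J TR.1) x
        ≤ ∑ k, S.at_.rho k x * (24 * (2 * Kz * dens S O.T (K * e) x)) := by
          refine Finset.sum_le_sum fun k _ => ?_
          rcases eq_or_ne (S.at_.rho k x) 0 with h0 | h0
          · simp [h0]
          refine mul_le_mul_of_nonneg_left ?_ (S.at_.rho_nonneg k x)
          obtain ⟨hs, hb⟩ := S.at_.rho_support k (subset_tsupport _ h0)
          have hA := S.near k (closedBall_subset_closedBall (show (1 : ℝ) ≤ 4 by norm_num)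
            (ball_subset_closedBall hb))
          refine hA.norm_le_of_quad (S.anti_read k (isTwoForm_p11 S.isJ TR.2).isAltField _) ?_
            fun v => (hline k h0 v).2
          show Alg.Inv _ (readC _ (p11 S.J TR.1) _)
          rw [readC_p11 S.isJ TR.2.isAltField (S.at_.mem_maximal k)
            ((S.at_.chart k).map_source hs)]
          exact Alg.inv_p11C hA.1 _
      _ = 24 * (2 * Kz * dens S O.T (K * e) x) := by
          rw [← Finset.sum_mul, S.at_.rho_sum, one_mul]
      _ ≤ _ := by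
          rw [← mul_assoc]
          exact mul_le_mul_of_nonneg_right (le_add_of_nonneg_left hm0) hdK

end Vale.Agent.P204.Full.Square
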