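import Vale.Agent.P204.Full.Square.Main
import Vale.Agent.P204.Full.Square.Pointwise
import Vale.Agent.P204.Full.CurCalc.Bump
import Vale.Agent.P204.Full.Cut.Point

/-!
P204: the representative of a smoothed positive functional satisfies `RepPos`, and the symmetric
positivity hypothesis of the square argument.
-/

namespace Vale.Agent.P204.Full.Square

open MeasureTheory Set Metric Filter Topology
open scoped Manifold ContDiff

set_option linter.unusedSectionVars false

universe u

variable {M : Type u} [TopologicalSpace M] [ChartedSpace E4 M] [IsManifold (𝓡 4) ∞ M]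
  [MeasurableSpace M] [BorelSpace M] [T2Space M] [CompactSpace M]
variable {S : Setup M}

theorem F_line_nonneg (S : Setup M) (x : M) (v : E4) : 0 ≤ S.F.1 x v (S.J x v) := by
  rcases eq_or_ne v 0 with rfl | hv
  · rw [S.F.2.2.1, (S.F.2.1 x _).map_zero, neg_zero]
  · exact (S.F_pos x v hv).le

/-- a positive functional on the cut-off forms is monotone in the scale -/
theorem apply_bumpForm_mono {L : Form M →ₗ[ℝ] ℝ} (hL : IsPosCur S L) {r r' : ℝ} (hr : 0 < r)
    (hrr : r ≤ r') (x : M) : L (bumpForm S r x) ≤ L (bumpForm S r' x) := by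
  have h := hL.nonneg (bumpForm S r' x - bumpForm S r x)
    (p11_scalar_mul_F S _ (fun z => S.bump r' x z - S.bump r x z) fun z u v => by
      simp only [Submodule.coe_sub, Pi.sub_apply, bumpForm_apply]
      ring)
    (fun z v => by
      simp only [Submodule.coe_sub, Pi.sub_apply, bumpForm_apply, ← sub_mul]
      refine mul_nonneg (sub_nonneg.2 (Real.smoothTransition.monotone ?_)) (F_line_nonneg S z v)
      exact sub_le_sub_left (div_le_div_of_nonneg_left (sq_nonneg _) (by positivity)
        (pow_le_pow_left₀ hr.le hrr 2)) _)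
  rw [map_sub] at h
  linarith

/-- comparison of the densities at two scales -/
theorem dens_le_dens {L : Form M →ₗ[ℝ] ℝ} (hL : IsPosCur S L) {r r' : ℝ} (hr : 0 < r)
    (hrr : r ≤ r') (x : M) : dens S L r x ≤ (r' / r) ^ 4 * dens S L r' x := by
  have h := apply_bumpForm_mono hL hr hrr x
  have hr' : 0 < r' := hr.trans_le hrr
  rw [dens, dens, ballVal_eq, ballVal_eq, div_pow]
  calc L (bumpForm S r x) / r ^ 4 ≤ L (bumpForm S r' x) / r ^ 4 :=
        div_le_div_of_nonneg_right h (by positivity)
    _ = _ := by field_simp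

theorem isSmoothFn_dens (O : Obstruction S) (r : ℝ) : IsSmoothFn (dens S O.T r) := by
  have h : dens S O.T r = fun x => (r ^ 4)⁻¹ * O.T (bumpForm S r x) := by
    funext x
    rw [dens, ballVal_eq, div_eq_inv_mul]
  rw [h]
  exact (CurCalc.isSmoothFn_apply_bumpForm O.T_bound r).const_mul _

/-- the symmetric positivity used in the square argument -/
theorem hsym (T : EndTools S) (H : Form M) (hi : p11 S.J H.1 = H.1) (hp : NonnegJ S.J H.1) :
    0 ≤ T.Q H H := by
  rw [T.hQ]
  exact pair_self_nonneg H hi hp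

/-- pointwise positivity of the representative -/
theorem repPos (T : EndTools S) {R Rt : ℝ → Form M →ₗ[ℝ] Form M} (h : SmoothPair S R Rt)
    (O : Obstruction S) : RepPos S T O Rt := by
  have hT : IsPosCur S O.T := isPosCur_T O
  obtain ⟨C, K₀, K₂, hC, hK₀, hK₂, hp⟩ :=
    exists_pointwise h.right O (fun r hr => T.maj_bound O.T hT (T.posCur_bound hT) r hr)
  set K := max K₀ K₂ with hKdef
  have hK : 0 < K := lt_max_of_lt_left hK₀
  set B := S.cN 0 S.F.1
  have hB : 0 ≤ B := S.cN_nonneg 0 _
  set r₀ := (K / K₀) ^ 4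
  set r₂ := B * (K / K₂) ^ 4
  have hr₀ : 0 ≤ r₀ := by positivity
  have hr₂ : 0 ≤ r₂ := by positivity
  set D := C * r₀ + C * r₂ + C + r₂ + 1 with hD
  have hD1 : 1 ≤ D := by rw [hD]; linarith [mul_nonneg hC hr₀, mul_nonneg hC hr₂]
  have hD0 : 0 < D := by linarith
  refine ⟨D, K, hK, fun e he he1 TR hTR => ?_⟩
  set d₂ := dens S O.T (K₂ * e)
  set G₀ : Form M := fmul d₂ (isSmoothFn_dens O _) S.F with hG₀
  set G : Form M := (C / D) • G₀ with hG
  refine ⟨G, T.P TR + (C * e ^ 2) • G₀, ?_, ?_, ?_, fun x => ?_⟩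
  · rw [hG, smul_smul, show D * e ^ 2 * (C / D) = C * e ^ 2 by field_simp]
    abel
  · refine (p11_eq_self_iff _ _).2 fun z u v => ?_
    have h1 := (p11_eq_self_iff _ _).1 S.F_inv z u v
    have h2 : p11 S.J (T.P TR).1 = (T.P TR).1 := by
      rw [T.hP, p11_p11 S.isJ TR.2.isAltField]
    have h3 := (p11_eq_self_iff _ _).1 h2 z u v
    simp only [Submodule.coe_add, Submodule.coe_smul, Pi.add_apply, Pi.smul_apply, hG₀, fmul_coe,
      smulFn, h1, h3]
  · intro z v
    have h1 := (hp e he he1 TR hTR z).1 v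
    simp only [Submodule.coe_add, Submodule.coe_smul, Pi.add_apply, Pi.smul_apply, hG₀, fmul_coe,
      smulFn, smul_eq_mul]
    rw [T.hP TR, ← mul_assoc]
    simp only [d₂]
    linarith
  · have hd := T.dens_nonneg hT (show 0 < K * e by positivity) x
    have hd₂ := T.dens_nonneg hT (show 0 < K₂ * e by positivity) x
    have hc : ∀ k : ℝ, 0 < k → k ≤ K →
        dens S O.T (k * e) x ≤ (K / k) ^ 4 * dens S O.T (K * e) x := fun k hk hkK => by
      have := dens_le_dens hT (show 0 < k * e by positivity)
        (mul_le_mul_of_nonneg_right hkK he.le) x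
      rwa [mul_div_mul_right K k he.ne'] at this
    have hn : S.nrm G₀.1 x ≤ r₂ * dens S O.T (K * e) x := by
      rw [hG₀, fmul_coe, Step5.nrm_smulFn, abs_of_nonneg hd₂, mul_comm, mul_assoc]
      exact mul_le_mul (S.nrm_le_cN 0 S.F.2 x) (hc K₂ hK₂ (le_max_right _ _)) hd₂ hB
    constructor
    · rw [hG, Submodule.coe_smul, S.nrm_smul, abs_of_nonneg (by positivity)]
      refine (mul_le_mul_of_nonneg_left hn (by positivity)).trans ?_
      rw [← mul_assoc]
      refine mul_le_mul_of_nonneg_right ?_ hd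
      rw [div_mul_eq_mul_div, div_le_iff₀ hD0]
      exact le_trans (by rw [hD]; linarith [mul_nonneg hC hr₀]) (le_mul_of_one_le_left hD0.le hD1)
    · rw [Submodule.coe_add, Submodule.coe_smul, T.hP]
      refine (S.nrm_add_le _ _ x).trans ?_
      rw [S.nrm_smul, abs_of_nonneg (by positivity)]
      have h1 : S.nrm (p11 S.J TR.1) x ≤ C * r₀ * dens S O.T (K * e) x := by
        refine ((hp e he he1 TR hTR x).2).trans ?_
        rw [mul_assoc]
        exact mul_le_mul_of_nonneg_left (hc K₀ hK₀ (le_max_left _ _)) hC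
      have h2 : C * e ^ 2 * S.nrm G₀.1 x ≤ C * r₂ * dens S O.T (K * e) x := by
        rw [mul_assoc C r₂]
        exact mul_le_mul (mul_le_of_le_one_right hC (pow_le_one₀ he.le he1)) hn (S.nrm_nonneg _ x) hC
      have h3 : 0 ≤ (C + r₂ + 1) * dens S O.T (K * e) x := mul_nonneg (by linarith) hd
      rw [hD]
      linarith

/-- the square argument from the facts about forms -/
theorem squareSpec_of (T : EndTools S) : SquareSpec S :=
  squareSpec_of_tools T (hsym T) fun _ _ h O => repPos T h O

end Vale.Agent.P204.Full.Square
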